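import Crest.Prelude.Def_GlobularCoherator

/-!
# Reflection of presheaves into models of a globular theory

For a globular theory `C`, models are exactly the local objects of the presheaf category for
a small set of maps with presentable domain and codomain.  Hence the forgetful functor
`forget C : GlobModel C ⥤ (C.Obᵒᵖ ⥤ Type u)` has a left adjoint and `GlobModel C` has colimits.
-/

namespace Crest.Agent.Henry

open CategoryTheory CategoryTheory.Limits Opposite
open Crest.GeometryTopology.Coherator

universe u

variable (C : GlobTheory.{u})

/-- Index of the designated gluing squares. -/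
structure GlueIdx where
  S : Shape
  b : ℕ
  h : ℕ
  hb : b < S.last
  hh : b < h

namespace GlueIdx

/-- The pushout of the two representable presheaves of a designated gluing square. -/
noncomputable abbrev po (C : GlobTheory.{u}) (i : GlueIdx) : C.Obᵒᵖ ⥤ Type u :=
  pushout (yoneda.map (C.incl.map (i.S.hinge i.hb)))
    (yoneda.map (C.incl.map (Shape.faceMap i.hh false)))

/-- The representable presheaf of the glued shape. -/
noncomputable abbrev tgt (C : GlobTheory.{u}) (i : GlueIdx) : C.Obᵒᵖ ⥤ Type u :=
  yoneda.obj (C.incl.obj (i.S.glue i.b i.h i.hb i.hh))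

/-- The comparison map from the pushout of representables to the representable of the glued shape. -/
noncomputable def comparison (C : GlobTheory.{u}) (i : GlueIdx) : po C i ⟶ tgt C i :=
  pushout.desc (yoneda.map (C.incl.map (i.S.inLeft i.b i.h i.hb i.hh)))
    (yoneda.map (C.incl.map (i.S.inRight i.b i.h i.hb i.hh)))
    (by
      rw [← yoneda.map_comp, ← yoneda.map_comp]
      exact congrArg _ (C.respectsSums i.S i.b i.h i.hb i.hh).w)

end GlueIdx

/-- The property of maps whose local objects are the models. -/
noncomputable def modelW : MorphismProperty (C.Obᵒᵖ ⥤ Type u) :=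
  MorphismProperty.ofHoms (GlueIdx.comparison C)

instance : MorphismProperty.IsSmall.{u} (modelW C) :=
  MorphismProperty.isSmall_ofHoms.{u} (GlueIdx.comparison C)

/-- Representable presheaves are presentable for every regular cardinal. -/
instance isCardinalPresentable_yoneda (κ : Cardinal.{u}) [Fact κ.IsRegular] (X : C.Ob) :
    IsCardinalPresentable (yoneda.obj X : C.Obᵒᵖ ⥤ Type u) κ where
  preservesColimitOfShape J _ _ := by
    let e : coyoneda.obj (op (yoneda.obj X : C.Obᵒᵖ ⥤ Type u)) ≅
        (evaluation C.Obᵒᵖ (Type u)).obj (op X) :=
      NatIso.ofComponents (fun P => Equiv.toIso yonedaEquiv) (by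
        intro P Q f
        ext g
        simp [yonedaEquiv])
    exact preservesColimitsOfShape_of_natIso e.symm

/-- The pushouts of representables are presentable. -/
lemma isCardinalPresentable_po (κ : Cardinal.{u}) [Fact κ.IsRegular] (i : GlueIdx) :
    IsCardinalPresentable (GlueIdx.po C i) κ := by
  have hK : HasCardinalLT (Arrow WalkingSpan) κ :=
    hasCardinalLT_of_finite _ _ (Cardinal.IsRegular.aleph0_le Fact.out)
  have : ∀ k, IsCardinalPresentable ((span (yoneda.map (C.incl.map (i.S.hinge i.hb)))
      (yoneda.map (C.incl.map (Shape.faceMap i.hh false)))).obj k) κ := by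
    rintro (_ | _ | _) <;> dsimp <;> infer_instance
  exact isCardinalPresentable_of_isColimit _ (colimit.isColimit _) κ hK

/-- Locality for the comparison maps is the pullback condition. -/
lemma isLocal_iff_isPullback (F : C.Obᵒᵖ ⥤ Type u) :
    (modelW C).isLocal F ↔ ∀ (S : Shape) (b h : ℕ) (hb : b < S.last) (hh : b < h),
      IsPullback (F.map (C.incl.map (S.inLeft b h hb hh)).op)
        (F.map (C.incl.map (S.inRight b h hb hh)).op)
        (F.map (C.incl.map (S.hinge hb)).op)
        (F.map (C.incl.map (Shape.faceMap hh false)).op) := by
  have nat : ∀ {X Y : C.Ob} (f : X ⟶ Y) (g : yoneda.obj Y ⟶ F),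
      yonedaEquiv (yoneda.map f ≫ g) = F.map f.op (yonedaEquiv g) := fun f g =>
    (yonedaEquiv_naturality g f).symm
  have hw : ∀ (S : Shape) (b h : ℕ) (hb : b < S.last) (hh : b < h),
      F.map (C.incl.map (S.inLeft b h hb hh)).op ≫ F.map (C.incl.map (S.hinge hb)).op =
        F.map (C.incl.map (S.inRight b h hb hh)).op ≫
          F.map (C.incl.map (Shape.faceMap hh false)).op := by
    intro S b h hb hh
    rw [← F.map_comp, ← F.map_comp, ← op_comp, ← op_comp]
    exact congrArg (fun z => F.map (Quiver.Hom.op z)) (C.respectsSums S b h hb hh).w
  constructor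
  · intro hF S b h hb hh
    let i : GlueIdx := ⟨S, b, h, hb, hh⟩
    have hi := hF (GlueIdx.comparison C i) (MorphismProperty.ofHoms.mk i)
    rw [Types.isPullback_iff]
    refine ⟨hw S b h hb hh, ?_, ?_⟩
    · rintro x₁ y₁ ⟨h₁, h₂⟩
      apply yonedaEquiv.symm.injective
      apply hi.1
      apply pushout.hom_ext
      · dsimp only
        rw [GlueIdx.comparison, pushout.inl_desc_assoc, pushout.inl_desc_assoc]
        apply yonedaEquiv.injective
        rw [nat, nat]
        simpa using h₁
      · dsimp only
        rw [GlueIdx.comparison, pushout.inr_desc_assoc, pushout.inr_desc_assoc]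
        apply yonedaEquiv.injective
        rw [nat, nat]
        simpa using h₂
    · intro x₂ x₃ hx
      have hcomp : yoneda.map (C.incl.map (S.hinge hb)) ≫ yonedaEquiv.symm x₂ =
          yoneda.map (C.incl.map (Shape.faceMap hh false)) ≫ yonedaEquiv.symm x₃ := by
        apply yonedaEquiv.injective
        rw [nat, nat]
        simpa using hx
      obtain ⟨g, hg⟩ := hi.2 (pushout.desc _ _ hcomp)
      refine ⟨yonedaEquiv g, ?_, ?_⟩
      · have := congrArg (fun z => pushout.inl _ _ ≫ z) hg
        dsimp only at this
        rw [GlueIdx.comparison, pushout.inl_desc_assoc, pushout.inl_desc] at this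
        have h2 := congrArg yonedaEquiv this
        rw [nat] at h2
        simpa using h2
      · have := congrArg (fun z => pushout.inr _ _ ≫ z) hg
        dsimp only at this
        rw [GlueIdx.comparison, pushout.inr_desc_assoc, pushout.inr_desc] at this
        have h2 := congrArg yonedaEquiv this
        rw [nat] at h2
        simpa using h2
  · rintro hF _ _ _ ⟨i⟩
    obtain ⟨S, b, h, hb, hh⟩ := i
    have hP := hF S b h hb hh
    rw [Types.isPullback_iff] at hP
    obtain ⟨_, hinj, hsurj⟩ := hP
    constructor
    · intro g₁ g₂ hg
      apply yonedaEquiv.injective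
      apply hinj
      constructor
      · rw [← nat, ← nat]
        congr 1
        have := congrArg (fun z => pushout.inl _ _ ≫ z) hg
        dsimp only at this
        rwa [GlueIdx.comparison, pushout.inl_desc_assoc, pushout.inl_desc_assoc] at this
      · rw [← nat, ← nat]
        congr 1
        have := congrArg (fun z => pushout.inr _ _ ≫ z) hg
        dsimp only at this
        rwa [GlueIdx.comparison, pushout.inr_desc_assoc, pushout.inr_desc_assoc] at this
    · intro φ
      have hc : F.map (C.incl.map (S.hinge hb)).op (yonedaEquiv (pushout.inl _ _ ≫ φ)) =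
          F.map (C.incl.map (Shape.faceMap hh false)).op (yonedaEquiv (pushout.inr _ _ ≫ φ)) := by
        rw [← nat, ← nat, ← Category.assoc, ← Category.assoc, pushout.condition]
      obtain ⟨x₁, h₁, h₂⟩ := hsurj _ _ hc
      refine ⟨yonedaEquiv.symm x₁, ?_⟩
      apply pushout.hom_ext
      · dsimp only
        rw [GlueIdx.comparison, pushout.inl_desc_assoc]
        apply yonedaEquiv.injective
        rw [nat]
        simpa using h₁
      · dsimp only
        rw [GlueIdx.comparison, pushout.inr_desc_assoc]
        apply yonedaEquiv.injective
        rw [nat]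
        simpa using h₂

/-- The forgetful functor from models to presheaves. -/
@[simps] def forget : GlobTheory.GlobModel C ⥤ (C.Obᵒᵖ ⥤ Type u) where
  obj X := X.functor
  map f := f

instance : (forget C).Full where
  map_surjective f := ⟨f, rfl⟩

instance : (forget C).Faithful where
  map_injective h := h

/-- Models as local objects. -/
def toLocal : GlobTheory.GlobModel C ⥤ (modelW C).isLocal.FullSubcategory where
  obj X := ⟨X.functor, (isLocal_iff_isPullback C _).2 X.sums⟩
  map f := ⟨f⟩

instance : (toLocal C).Full where
  map_surjective f := ⟨f.hom, rfl⟩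

instance : (toLocal C).Faithful where
  map_injective h := congrArg (fun z => z.hom) h

instance : (toLocal C).EssSurj where
  mem_essImage X := ⟨⟨X.obj, (isLocal_iff_isPullback C _).1 X.property⟩, ⟨Iso.refl _⟩⟩

instance : (toLocal C).IsEquivalence where

/-- The inclusion of the `modelW`-local objects is a right adjoint. -/
lemma isRightAdjoint_ι : (modelW C).isLocal.ι.IsRightAdjoint := by
  haveI : Fact (Cardinal.aleph0.{u}).IsRegular := ⟨Cardinal.isRegular_aleph0⟩
  refine MorphismProperty.isRightAdjoint_ι_isLocal (modelW C) Cardinal.aleph0.{u} ?_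
  rintro _ _ _ ⟨i⟩
  exact ⟨isCardinalPresentable_po C _ i, inferInstance⟩

instance : (forget C).IsRightAdjoint := by
  have := isRightAdjoint_ι C
  have : (toLocal C ⋙ (modelW C).isLocal.ι).IsRightAdjoint := inferInstance
  exact this

/-- The reflection of presheaves into models. -/
noncomputable def reflect : (C.Obᵒᵖ ⥤ Type u) ⥤ GlobTheory.GlobModel C := (forget C).leftAdjoint

/-- The adjunction between the reflection and the forgetful functor. -/
noncomputable def reflectAdj : reflect C ⊣ forget C := Adjunction.ofIsRightAdjoint (forget C)

noncomputable instance : Reflective (forget C) where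
  L := reflect C
  adj := reflectAdj C

instance : HasColimitsOfSize.{u, u} (GlobTheory.GlobModel C) :=
  hasColimits_of_reflective (forget C)

instance : HasLimitsOfSize.{u, u} (GlobTheory.GlobModel C) :=
  hasLimits_of_reflective (forget C)

end Crest.Agent.Henry
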