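import Crest.Agent.Henry.LemmaJ

/-!
# Section 6a of the S0382 blueprint: `Conn_m(U_m)` (helper97)

`U` is a `J`-step over the disk `F(D_m)`, `n < m`, attaching one cell `H` along the `n`-source of the top
cell of the disk.  Then `U` is connected in dimension `m`, given a cylinder model for `(U, n + 1, m)` and
the transport inverse.
-/

set_option autoImplicit false
set_option linter.unusedVariables false

open CategoryTheory CategoryTheory.Limits Opposite
open Crest.GeometryTopology.Coherator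
open Crest.GeometryTopology.Coherator.GlobTheory Crest.GeometryTopology.Coherator.GlobTheory.GlobModel

universe u

namespace Crest.Agent.Henry

variable {C : GlobTheory.{u}}

/-- The top cell of a disk. -/
noncomputable abbrev diskTop (C : GlobTheory.{u}) (m : ℕ) : (diskModel C m).cells.cell m :=
  diskCell (𝟙 (diskModel C m))

lemma cellDisk_top {Z : GlobModel C} {m : ℕ} (x : Z.cells.cell m) :
    (cellsMap (cellDisk x)).app m (diskTop C m) = x := by
  have := diskCell_comp (𝟙 (diskModel C m)) (cellDisk x)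
  rw [Category.id_comp, diskCell_cellDisk] at this
  exact this.symm

/-- Maps out of a disk are determined by the image of the top cell. -/
lemma disk_hom_ext {Z : GlobModel C} {m : ℕ} {f g : diskModel C m ⟶ Z}
    (h : (cellsMap f).app m (diskTop C m) = (cellsMap g).app m (diskTop C m)) : f = g := by
  have key : ∀ f : diskModel C m ⟶ Z, diskCell f = (cellsMap f).app m (diskTop C m) := by
    intro f
    have := diskCell_comp (𝟙 (diskModel C m)) f
    rwa [Category.id_comp] at this
  rw [← cellDisk_diskCell f, ← cellDisk_diskCell g, key f, key g, h]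

variable (hC : HasFillers C)

/-- AD: a cell is joined to its double inverse. -/
theorem step_inv_inv {Y : GlobModel C} (m : ℕ) (b : Y.cells.cell (m + 1)) :
    Y.cells.Step (m + 1) b (GM.inv hC (GM.inv hC b)) := by
  let F := diskModel C (m + 1)
  let ι : F.cells.cell (m + 1) := diskTop C (m + 1)
  let g : F ⟶ Y := cellDisk b
  have hι : (cellsMap g).app (m + 1) ι = b := cellDisk_top b
  have hconn : GM.Conn F (m + 1) := GM.conn_freeOn hC (S := Shape.globe (m + 1)) (by
    change m + 1 ≤ m + 1 + 1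
    omega)
  have hpar : F.cells.AreParallel (m + 1) ι (GM.inv hC (GM.inv hC ι)) := by
    constructor
    · rw [GM.src_inv, GM.tgt_inv]
    · rw [GM.tgt_inv, GM.src_inv]
  have h := GM.step_map g (hconn _ _ hpar)
  rwa [GM.map_inv, GM.map_inv, hι] at h

/-- **Section 6a.** -/
theorem conn_U {n m : ℕ} (hnm : n < m) {U : GlobModel C} {ι : diskModel C m ⟶ U} (J : JStep ι n)
    (k0 : J.K) (hk0 : ∀ k, k = k0)
    (ha : J.a k0 = GM.bface (diskModel C m) hnm false (diskTop C m))
    (CM : CylModel hC U (n + 1) m)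
    (TI : ∀ k, m = k + 1 → TransportInv hC U (n + 1) k) : GM.Conn U m := by
  -- the attached cell and the top cell in `U`
  set H : U.cells.cell (n + 1) := J.b k0 with hH
  set wU : U.cells.cell m := (cellsMap ι).app m (diskTop C m) with hwU
  have hsrcH : U.cells.src n H = GM.bface U hnm false wU := by
    rw [hH, J.src_b, ha]
    exact GM.map_bface ι hnm false _
  -- the two-globe shape `R'`
  let S2 : Shape := two n (n + 1) m (Nat.lt_succ_self n) hnm
  let R' : GlobModel C := freeOn C S2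
  let xR : R'.cells.cell (n + 1) := C.incl.map (inL n (n + 1) m (Nat.lt_succ_self n) hnm)
  let wR : R'.cells.cell m := C.incl.map (inR n (n + 1) m (Nat.lt_succ_self n) hnm)
  have hxw : R'.cells.tgt n xR = GM.bface R' hnm false wR := by
    have h1 := congrArg C.incl.map (two_w (k := n) (p := n + 1) (q := m)
      (hp := Nat.lt_succ_self n) (hq := hnm))
    rw [C.incl.map_comp, C.incl.map_comp] at h1
    exact h1
  have hzψ : ∀ k, R'.cells.src n (GM.inv hC xR) = (cellsMap (cellDisk wR)).app n (J.a k) := by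
    intro k
    rw [hk0 k, GM.src_inv, ha, hxw, GM.map_bface, cellDisk_top]
  obtain ⟨ψ, ⟨hψ1, hψ2⟩, -⟩ := J.univ R' (cellDisk wR) (fun _ => GM.inv hC xR) hzψ
  have hcomp : GM.bface U (Nat.lt_succ_self n) true (GM.inv hC H) = GM.bface U hnm false wU := by
    rw [GM.bface_tgt, GM.tgt_inv, hsrcH]
  let φ : R' ⟶ U := yonedaEquiv.symm (GM.pair U (Nat.lt_succ_self n) hnm (GM.inv hC H) wU hcomp)
  have hφx : (cellsMap φ).app _ xR = GM.inv hC H := GM.pair_left _ _ _ _ _
  have hφw : (cellsMap φ).app _ wR = wU := GM.pair_right _ _ _ _ _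
  have hιθ : ι ≫ ψ ≫ φ = ι := by
    rw [← Category.assoc, hψ1]
    apply disk_hom_ext
    show (cellsMap φ).app m ((cellsMap (cellDisk wR)).app m (diskTop C m)) = wU
    rw [cellDisk_top, hφw]
  have hθH : (cellsMap (ψ ≫ φ)).app _ H = GM.inv hC (GM.inv hC H) := by
    show (cellsMap φ).app _ ((cellsMap ψ).app _ H) = _
    rw [hH, hψ2 k0, GM.map_inv, hφx]
  -- the homotopy
  obtain ⟨β, hβ1, hβ2⟩ := step_inv_inv hC n H
  obtain ⟨x, hxv, hx0, hx1, -, hxp⟩ := exists_Hc hC U (n + 1) m (GM.inv hC (GM.inv hC H)) H β hβ1 hβ2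
  have hsx : x.csrc = Cy.marked (U.cells.src n H) := by
    refine (hxp.1).symm.trans ?_
    show @Cy.marked (cellsPsh U) n (U.cells.src n (GM.inv hC (GM.inv hC H))) = _
    rw [GM.src_inv, GM.tgt_inv]
  have hz : ∀ k, CM.P.cells.src n ((CM.e (n + 1)).symm ⟨x, hxv⟩) =
      (cellsMap (ι ≫ CM.d)).app n (J.a k) := by
    intro k
    apply (CM.e n).injective
    apply Subtype.ext
    rw [← CM.csrc_e, Equiv.apply_symm_apply, hk0 k, hsx, hH, J.src_b]
    exact (CM.d_e n _).symm
  obtain ⟨Hm, ⟨h1, h2⟩, -⟩ := J.univ CM.P (ι ≫ CM.d) (fun _ => (CM.e (n + 1)).symm ⟨x, hxv⟩) hz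
  have hid0 : ι ≫ Hm ≫ CM.p0 = ι ≫ 𝟙 U := by
    rw [← Category.assoc, h1, Category.assoc, CM.d_p0]
  have hid1 : ι ≫ Hm ≫ CM.p1 = ι ≫ ψ ≫ φ := by
    rw [← Category.assoc, h1, Category.assoc, CM.d_p1, hιθ, Category.comp_id]
  have hp0 : Hm ≫ CM.p0 = 𝟙 U := by
    refine J.hom_ext hid0 (fun k => ?_)
    rw [hk0 k]
    show (cellsMap CM.p0).app _ ((cellsMap Hm).app _ (J.b k0)) = J.b k0
    rw [h2, CM.p0_e, Equiv.apply_symm_apply]
    exact hx0
  have hp1 : Hm ≫ CM.p1 = ψ ≫ φ := by
    refine J.hom_ext hid1 (fun k => ?_)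
    rw [hk0 k]
    show (cellsMap CM.p1).app _ ((cellsMap Hm).app _ (J.b k0)) = (cellsMap (ψ ≫ φ)).app _ H
    rw [h2, CM.p1_e, Equiv.apply_symm_apply, hθH]
    exact hx1
  refine CM.conn_of_homotopy Hm hp0 (ψ ≫ φ) hp1 TI ?_
  intro u v huv
  have hconn : GM.Conn R' m := GM.conn_freeOn hC (S := S2) (by
    rw [two_dim]
    omega)
  exact GM.step_map φ (hconn _ _ (GM.parallel_map ψ huv))

end Crest.Agent.Henry
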