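import Crest.Agent.Henry.RerouteA
import Crest.Agent.Henry.Induction

/-!
# Sections 6b, 6c of the S0382 blueprint: the cells `Ψ_m` and the homotopy `H'` (helper97)

`UDat`: the model `U_m = F(D_m)[H : s → s¹]`, `n < m`.  `Ψ i` is the unmarked cell of dimension
`n + i + 1` of the cylinder of `U (i)` from the top cell `w` to `L_n(H, L_n(inv H, w))`.

`exists_H'`: for a J-step `Y1` over `F(S)` along all `n`-cells of `S`, a homotopy `H'` from the identity
to the map `θ` of section 6.
-/

set_option autoImplicit false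
set_option linter.unusedVariables false

open CategoryTheory CategoryTheory.Limits Opposite
open Crest.GeometryTopology.Coherator
open Crest.GeometryTopology.Coherator.GlobTheory Crest.GeometryTopology.Coherator.GlobTheory.GlobModel

universe u

namespace Crest.Agent.Henry

namespace RerouteB

variable {C : GlobTheory.{u}}

/-! ### Free models -/

section Free

variable {S : Shape} {Z : GlobModel C}

theorem map_freeCell (g : freeOn C S ⟶ Z) {m : ℕ} (c : Cell S.psh m) :
    (cellsMap g).app m (freeCell c) =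
      cellAt (tupleHom Z (g.app _ (show Tuples (freeOn C S) S from 𝟙 (⟨S⟩ : C.Ob)))) c := by
  rw [cellAt_tupleHom]
  have h := types_congr_hom (g.naturality (C.incl.map (cellShape c)).op)
    (show Tuples (freeOn C S) S from 𝟙 (⟨S⟩ : C.Ob))
  have e : (C.ofShape (cellShape c) : C.arr (Shape.globe m) S) =
      C.seq (C.ofShape (cellShape c)) (C.one S) := (C.seq_one _).symm
  exact Eq.trans (congrArg (fun o => g.app (op (⟨Shape.globe m⟩ : C.Ob)) o) e) h

theorem free_hom_ext {f g : freeOn C S ⟶ Z}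
    (h : ∀ (m : ℕ) (c : Cell S.psh m), (cellsMap f).app m (freeCell c) = (cellsMap g).app m (freeCell c)) :
    f = g := by
  have h1 : tupleHom Z (f.app _ (show Tuples (freeOn C S) S from 𝟙 (⟨S⟩ : C.Ob))) =
      tupleHom Z (g.app _ (show Tuples (freeOn C S) S from 𝟙 (⟨S⟩ : C.Ob))) := by
    apply hom_ext_cell
    intro m c
    rw [← map_freeCell, ← map_freeCell, h]
  have h2 := (tupleHom_bijective Z S).1 h1
  exact (yonedaEquiv (X := (⟨S⟩ : C.Ob)) (F := Z.functor)).injective h2

theorem exists_free_lift (t : uL.obj S.psh ⟶ cellsPsh Z) :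
    ∃ g : freeOn C S ⟶ Z, ∀ (m : ℕ) (c : Cell S.psh m), (cellsMap g).app m (freeCell c) = cellAt t c := by
  obtain ⟨x, hx⟩ := (tupleHom_bijective Z S).2 t
  refine ⟨(yonedaEquiv (X := (⟨S⟩ : C.Ob)) (F := Z.functor)).symm x, fun m c => ?_⟩
  rw [map_freeCell, ← hx]
  congr 2
  exact (yonedaEquiv (X := (⟨S⟩ : C.Ob)) (F := Z.functor)).apply_symm_apply x

theorem freeCell_eq_cellAt {m : ℕ} (c : Cell S.psh m) :
    freeCell (C := C) c = cellAt (tupleHom (freeOn C S) (show Tuples (freeOn C S) S from 𝟙 (⟨S⟩ : C.Ob))) c := by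
  exact map_freeCell (𝟙 (freeOn C S)) c

theorem face_freeCell {k m : ℕ} (h : k < m) (b : Bool) (c : Cell S.psh m) :
    GM.bface (freeOn C S) h b (freeCell c) = freeCell (Cell.face S.psh h b c) := by
  rw [freeCell_eq_cellAt, freeCell_eq_cellAt, cellAt_face]
  rfl

end Free

/-! ### The whisker `L(y, L(inv y, x))` -/

section Zc

variable (hC : HasFillers C) (n : ℕ) {Z : GlobModel C}

/-- The double whisker `L_n(y, L_n(inv y, x))`. -/
noncomputable def zc {h : ℕ} (x : Z.cells.cell h) (y : Z.cells.cell (n + 1)) : Z.cells.cell h :=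
  GM.L hC n y (GM.L hC n (GM.inv hC y) x)

variable {n}

theorem zc_compat {h : ℕ} (hk : n + 1 ≤ h) {x : Z.cells.cell h} {y : Z.cells.cell (n + 1)}
    (hc : Z.cells.src n y = GM.bface Z hk false x) :
    Z.cells.tgt n y = GM.bface Z hk false (GM.L hC n (GM.inv hC y) x) := by
  rw [(GM.L_bface hC hk (GM.inv hC y) x (by rw [GM.tgt_inv, hc])).1, GM.src_inv]

theorem zc_false {h : ℕ} (hk : n + 1 ≤ h) {x : Z.cells.cell h} {y : Z.cells.cell (n + 1)}
    (hc : Z.cells.src n y = GM.bface Z hk false x) :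
    GM.bface Z hk false (zc hC n x y) = Z.cells.src n y :=
  (GM.L_bface hC hk y _ (zc_compat hC hk hc)).1

theorem zc_true {h : ℕ} (hk : n + 1 ≤ h) {x : Z.cells.cell h} {y : Z.cells.cell (n + 1)}
    (hc : Z.cells.src n y = GM.bface Z hk false x) :
    GM.bface Z hk true (zc hC n x y) = GM.bface Z hk true x := by
  rw [zc, (GM.L_bface hC hk y _ (zc_compat hC hk hc)).2,
    (GM.L_bface hC hk (GM.inv hC y) x (by rw [GM.tgt_inv, hc])).2]

theorem zc_face {h : ℕ} (hk : n + 1 ≤ h) (b : Bool) {x : Z.cells.cell (h + 1)}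
    {y : Z.cells.cell (n + 1)} (hc : Z.cells.src n y = GM.bface Z (Nat.le_succ_of_le hk) false x) :
    GM.bface Z (Nat.lt_succ_self h) b (zc hC n x y) = zc hC n (GM.bface Z (Nat.lt_succ_self h) b x) y := by
  rw [zc, GM.L_succ_face hC hk b y _ (zc_compat hC (Nat.le_succ_of_le hk) hc),
    GM.L_succ_face hC hk b (GM.inv hC y) x (by rw [GM.tgt_inv, hc])]
  rfl

theorem zc_map {Y : GlobModel C} (g : Z ⟶ Y) {h : ℕ} (hk : n + 1 ≤ h) {x : Z.cells.cell h}
    {y : Z.cells.cell (n + 1)} (hc : Z.cells.src n y = GM.bface Z hk false x) :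
    (cellsMap g).app h (zc hC n x y) = zc hC n ((cellsMap g).app h x) ((cellsMap g).app _ y) := by
  rw [zc, GM.map_L hC g hk y _ (zc_compat hC hk hc),
    GM.map_L hC g hk (GM.inv hC y) x (by rw [GM.tgt_inv, hc]), GM.map_inv]
  rfl

end Zc

/-! ### The models `U_m` -/

/-- The model `U_m = F(D_m)[H : s → s¹]`. -/
structure UDat (C : GlobTheory.{u}) (n m : ℕ) (hm : n < m) where
  /-- the model -/
  U : GlobModel C
  /-- the disk in it -/
  ι : diskModel C m ⟶ U
  /-- the attachment -/
  J : JStep ι n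
  k0 : J.K
  hk0 : ∀ k, k = k0
  ha : J.a k0 = GM.bface (diskModel C m) hm false (diskTop C m)

theorem exists_UDat (n m : ℕ) (hm : n < m) : Nonempty (UDat C n m hm) := by
  obtain ⟨Y, i, b, h1, h2⟩ := exists_attach (diskModel C m) (K := PUnit.{u + 1}) (fun _ => n)
    (fun _ => GM.bface (diskModel C m) hm false (diskTop C m))
  exact ⟨⟨Y, i, ⟨PUnit, fun _ => GM.bface (diskModel C m) hm false (diskTop C m), b, h1, h2⟩,
    PUnit.unit, fun _ => rfl, rfl⟩⟩

namespace UDat

variable {n m : ℕ} {hm : n < m} (D : UDat C n m hm)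

/-- The top cell. -/
noncomputable def top : D.U.cells.cell m := (cellsMap D.ι).app m (diskTop C m)

/-- The attached cell. -/
noncomputable def H : D.U.cells.cell (n + 1) := D.J.b D.k0

theorem src_H : D.U.cells.src n D.H = GM.bface D.U hm false D.top := by
  rw [H, D.J.src_b, D.ha]
  exact GM.map_bface D.ι hm false _

theorem hom_ext {Z : GlobModel C} {f g : D.U ⟶ Z}
    (h1 : (cellsMap f).app m D.top = (cellsMap g).app m D.top)
    (h2 : (cellsMap f).app _ D.H = (cellsMap g).app _ D.H) : f = g := by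
  refine D.J.hom_ext ?_ (fun k => ?_)
  · apply disk_hom_ext
    exact h1
  · rw [D.hk0 k]
    exact h2

theorem exists_lift {Z : GlobModel C} (x : Z.cells.cell m) (y : Z.cells.cell (n + 1))
    (h : Z.cells.src n y = GM.bface Z hm false x) :
    ∃ g : D.U ⟶ Z, (cellsMap g).app m D.top = x ∧ (cellsMap g).app _ D.H = y := by
  obtain ⟨g, ⟨h1, h2⟩, -⟩ := D.J.univ Z (cellDisk x) (fun _ => y) (fun k => by
    rw [D.hk0 k, D.ha, GM.map_bface, cellDisk_top, h])
  refine ⟨g, ?_, h2 D.k0⟩
  show (cellsMap (D.ι ≫ g)).app m (diskTop C m) = x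
  rw [h1, cellDisk_top]

/-- The classifying map. -/
noncomputable def lift {Z : GlobModel C} (x : Z.cells.cell m) (y : Z.cells.cell (n + 1))
    (h : Z.cells.src n y = GM.bface Z hm false x) : D.U ⟶ Z :=
  (D.exists_lift x y h).choose

theorem lift_top {Z : GlobModel C} (x : Z.cells.cell m) (y : Z.cells.cell (n + 1))
    (h : Z.cells.src n y = GM.bface Z hm false x) : (cellsMap (D.lift x y h)).app m D.top = x :=
  (D.exists_lift x y h).choose_spec.1

theorem lift_H {Z : GlobModel C} (x : Z.cells.cell m) (y : Z.cells.cell (n + 1))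
    (h : Z.cells.src n y = GM.bface Z hm false x) : (cellsMap (D.lift x y h)).app _ D.H = y :=
  (D.exists_lift x y h).choose_spec.2

end UDat

section Psi

variable (C) (n : ℕ)

/-- The chosen data of `U` in dimension `n + i + 1`. -/
noncomputable def uD (i : ℕ) : UDat C n (n + i + 1) (by omega) := (exists_UDat n (n + i + 1) _).some

/-- The model `U` in dimension `n + i + 1`. -/
noncomputable abbrev U (i : ℕ) : GlobModel C := (uD C n i).U

/-- The top cell. -/
noncomputable abbrev top (i : ℕ) : (U C n i).cells.cell (n + i + 1) := (uD C n i).top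

/-- The attached cell. -/
noncomputable abbrev HH (i : ℕ) : (U C n i).cells.cell (n + 1) := (uD C n i).H

theorem top_compat (i : ℕ) (b : Bool) :
    (U C n (i + 1)).cells.src n (HH C n (i + 1)) =
      GM.bface (U C n (i + 1)) (show n < n + i + 1 by omega) false
        (GM.bface (U C n (i + 1)) (Nat.lt_succ_self _) b (top C n (i + 1))) := by
  rw [(uD C n (i + 1)).src_H, GM.bface_bface]

/-- The face maps. -/
noncomputable def fc (b : Bool) (i : ℕ) : U C n i ⟶ U C n (i + 1) :=
  (uD C n i).lift (GM.bface (U C n (i + 1)) (Nat.lt_succ_self _) b (top C n (i + 1)))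
    (HH C n (i + 1)) (top_compat C n i b)

theorem fc_top (b : Bool) (i : ℕ) : (cellsMap (fc C n b i)).app _ (top C n i) =
    GM.bface (U C n (i + 1)) (Nat.lt_succ_self _) b (top C n (i + 1)) :=
  (uD C n i).lift_top _ _ _

theorem fc_H (b : Bool) (i : ℕ) : (cellsMap (fc C n b i)).app _ (HH C n i) = HH C n (i + 1) :=
  (uD C n i).lift_H _ _ _

theorem fc_comp (b b' : Bool) (i : ℕ) :
    fc C n b i ≫ fc C n b' (i + 1) = fc C n b i ≫ fc C n (!b') (i + 1) := by
  apply (uD C n i).hom_ext
  · show (cellsMap (fc C n b' (i + 1))).app _ ((cellsMap (fc C n b i)).app _ (top C n i)) =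
      (cellsMap (fc C n (!b') (i + 1))).app _ ((cellsMap (fc C n b i)).app _ (top C n i))
    rw [fc_top, GM.map_bface, GM.map_bface, fc_top, fc_top, GM.bface_bface, GM.bface_bface]
  · show (cellsMap (fc C n b' (i + 1))).app _ ((cellsMap (fc C n b i)).app _ (HH C n i)) =
      (cellsMap (fc C n (!b') (i + 1))).app _ ((cellsMap (fc C n b i)).app _ (HH C n i))
    rw [fc_H, fc_H, fc_H]

variable (hC : HasFillers C) (j : ℕ)

/-- The target of `Ψ`. -/
noncomputable def zz (i : ℕ) : (U C n i).cells.cell (n + i + 1) := zc hC n (top C n i) (HH C n i)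

theorem hzz (i : ℕ) : (U C n i).cells.src n (HH C n i) =
    GM.bface (U C n i) (show n + 1 ≤ n + i + 1 by omega) false (top C n i) :=
  (uD C n i).src_H

open Classical in
/-- The optional homotopy part of `Ψ`. -/
noncomputable def hopt (i : ℕ) (σ τ : Cy (cellsPsh (U C n i)) (n + i)) :
    Option (Cell (cellsPsh (U C n i)) (n + i + 2)) :=
  if h : n + i + 1 ≤ j ∧ ∃ H0 : Cell (cellsPsh (U C n i)) (n + i + 2),
      sr _ (n + i + 1) H0 = TrRaw (zOps hC (U C n i)) (n + i) σ τ (n + i + 1) (top C n i) ∧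
      tg _ (n + i + 1) H0 = zz C n hC i
  then some h.2.choose else none

/-- `Ψ` from its boundary. -/
noncomputable def psiOf (i : ℕ) (p : Cy (cellsPsh (U C n i)) (n + i) × Cy (cellsPsh (U C n i)) (n + i)) :
    Cy (cellsPsh (U C n i)) (n + i + 1) :=
  Cy.un p.1 p.2 (top C n i) (zz C n hC i) (hopt C n hC j i p.1 p.2)

/-- The boundary of `Ψ`. -/
noncomputable def bd : (i : ℕ) → Cy (cellsPsh (U C n i)) (n + i) × Cy (cellsPsh (U C n i)) (n + i)
  | 0 => (Cy.marked (GM.bface (U C n 0) (Nat.lt_succ_self _) false (top C n 0)),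
      Cy.marked (GM.bface (U C n 0) (Nat.lt_succ_self _) true (top C n 0)))
  | i + 1 => ((psiOf C n hC j i (bd i)).map (cmap (fc C n false i)),
      (psiOf C n hC j i (bd i)).map (cmap (fc C n true i)))

/-- `Ψ`. -/
noncomputable def psi (i : ℕ) : Cy (cellsPsh (U C n i)) (n + i + 1) := psiOf C n hC j i (bd C n hC j i)

@[simp] theorem psi_p0 (i : ℕ) : (psi C n hC j i).p0 = top C n i := rfl

@[simp] theorem psi_p1 (i : ℕ) : (psi C n hC j i).p1 = zz C n hC i := rfl

theorem psi_csrc (i : ℕ) : (psi C n hC j i).csrc = (bd C n hC j i).1 := rfl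

theorem psi_ctgt (i : ℕ) : (psi C n hC j i).ctgt = (bd C n hC j i).2 := rfl

/-- The invariant of the boundary. -/
structure BdOK (i : ℕ) : Prop where
  vσ : Cy.Valid (zOps hC (U C n i)) (n + 1) j (bd C n hC j i).1
  vτ : Cy.Valid (zOps hC (U C n i)) (n + 1) j (bd C n hC j i).2
  par : Cy.Par (n + i) (bd C n hC j i).1 (bd C n hC j i).2
  s0 : sr (cellsPsh (U C n i)) (n + i) (top C n i) = (bd C n hC j i).1.p0
  t0 : tg (cellsPsh (U C n i)) (n + i) (top C n i) = (bd C n hC j i).2.p0
  s1 : sr (cellsPsh (U C n i)) (n + i) (zz C n hC i) = (bd C n hC j i).1.p1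
  t1 : tg (cellsPsh (U C n i)) (n + i) (zz C n hC i) = (bd C n hC j i).2.p1

variable {C n hC j}

theorem valid_psi {i : ℕ} (hConn : n + i + 1 ≤ j → GM.Conn (U C n i) (n + i + 1))
    (B : BdOK C n hC j i) : Cy.Valid (zOps hC (U C n i)) (n + 1) j (psi C n hC j i) := by
  refine ⟨B.vσ, B.vτ, B.par, by omega, B.s0, B.t0, B.s1, B.t1, ?_⟩
  by_cases hj : n + i + 1 ≤ j
  · have hbd := TrRaw_bdry (zLaws hC (U C n i)) (n := n + 1) (j := j) (k := n + i) (by omega)
      B.vσ B.vτ B.par (Nat.lt_succ_self (n + i)) (top C n i) B.s0 B.t0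
    have hpar : (U C n i).cells.AreParallel (n + i + 1)
        (TrRaw (zOps hC (U C n i)) (n + i) (bd C n hC j i).1 (bd C n hC j i).2 (n + i + 1) (top C n i))
        (zz C n hC i) := ⟨hbd.1.trans B.s1.symm, hbd.2.1.trans B.t1.symm⟩
    obtain ⟨H0, hs, ht⟩ := hConn hj _ _ hpar
    have hex : n + i + 1 ≤ j ∧ ∃ H0 : Cell (cellsPsh (U C n i)) (n + i + 2),
        sr _ (n + i + 1) H0 = TrRaw (zOps hC (U C n i)) (n + i) (bd C n hC j i).1 (bd C n hC j i).2
          (n + i + 1) (top C n i) ∧ tg _ (n + i + 1) H0 = zz C n hC i := ⟨hj, H0, hs, ht⟩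
    refine Or.inl ⟨hj, hex.2.choose, dif_pos hex, hex.2.choose_spec.1, hex.2.choose_spec.2⟩
  · exact Or.inr ⟨by omega, dif_neg (fun h => hj h.1)⟩

theorem cmap_comp {X Y Z : GlobModel C} (f : X ⟶ Y) (g : Y ⟶ Z) : cmap (f ≫ g) = cmap f ≫ cmap g := rfl

theorem map_map {A' : GlobModel C} {X Y : GlobModel C} {m : ℕ} (x : Cy (cellsPsh A') m) (f : A' ⟶ X)
    (g : X ⟶ Y) : (x.map (cmap f)).map (cmap g) = x.map (cmap (f ≫ g)) := by
  rw [cmap_comp, Cy.map_comp]

theorem bd_map_eq (i : ℕ) (b : Bool) :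
    ((bd C n hC j i).1).map (cmap (fc C n b i)) = ((bd C n hC j i).1).map (cmap (fc C n (!b) i)) ∧
    ((bd C n hC j i).2).map (cmap (fc C n b i)) = ((bd C n hC j i).2).map (cmap (fc C n (!b) i)) := by
  cases i with
  | zero =>
    constructor
    · show Cy.marked _ = Cy.marked _
      congr 1
      show (cellsMap (fc C n b 0)).app _ (GM.bface (U C n 0) _ false (top C n 0)) =
        (cellsMap (fc C n (!b) 0)).app _ (GM.bface (U C n 0) _ false (top C n 0))
      rw [GM.map_bface, GM.map_bface, fc_top, fc_top, GM.bface_bface, GM.bface_bface]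
    · show Cy.marked _ = Cy.marked _
      congr 1
      show (cellsMap (fc C n b 0)).app _ (GM.bface (U C n 0) _ true (top C n 0)) =
        (cellsMap (fc C n (!b) 0)).app _ (GM.bface (U C n 0) _ true (top C n 0))
      rw [GM.map_bface, GM.map_bface, fc_top, fc_top, GM.bface_bface, GM.bface_bface]
  | succ i =>
    constructor
    · show ((psiOf C n hC j i (bd C n hC j i)).map (cmap (fc C n false i))).map (cmap (fc C n b (i + 1))) =
        ((psiOf C n hC j i (bd C n hC j i)).map (cmap (fc C n false i))).map (cmap (fc C n (!b) (i + 1)))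
      rw [map_map, map_map, fc_comp C n false b i]
    · show ((psiOf C n hC j i (bd C n hC j i)).map (cmap (fc C n true i))).map (cmap (fc C n b (i + 1))) =
        ((psiOf C n hC j i (bd C n hC j i)).map (cmap (fc C n true i))).map (cmap (fc C n (!b) (i + 1)))
      rw [map_map, map_map, fc_comp C n true b i]

theorem bdOK (hConn : ∀ i, n + i + 1 ≤ j → GM.Conn (U C n i) (n + i + 1)) :
    ∀ i, BdOK C n hC j i
  | 0 => by
    have hk : n + 1 ≤ n + 0 + 1 := le_rfl
    refine ⟨trivial, trivial, ?_, rfl, rfl, ?_, ?_⟩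
    · exact Cy.par_of_valid (W := zOps hC (U C n 0)) (n := n + 1) (j := j)
        (x := Cy.marked (top C n 0)) trivial
    · exact (zc_false hC hk (hzz C n 0)).trans (hzz C n 0)
    · exact zc_true hC hk (hzz C n 0)
  | i + 1 => by
    have B := bdOK hConn i
    have hv := valid_psi (hConn i) B
    have hk : n + 1 ≤ n + i + 1 := by omega
    have hzb : ∀ b, (cellsMap (fc C n b i)).app _ (zz C n hC i) =
        GM.bface (U C n (i + 1)) (Nat.lt_succ_self _) b (zz C n hC (i + 1)) := by
      intro b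
      rw [zz, zc_map hC (fc C n b i) hk (hzz C n i), fc_top, fc_H]
      exact (zc_face hC hk b (hzz C n (i + 1))).symm
    refine ⟨?_, ?_, ?_, ?_, ?_, ?_, ?_⟩
    · exact Cy.map_valid (zLaws hC _) (zNat hC _) _ hv
    · exact Cy.map_valid (zLaws hC _) (zNat hC _) _ hv
    · refine ⟨?_, ?_⟩
      · show ((psi C n hC j i).map (cmap (fc C n false i))).csrc =
          ((psi C n hC j i).map (cmap (fc C n true i))).csrc
        rw [Cy.map_csrc, Cy.map_csrc, psi_csrc]
        exact (bd_map_eq i false).1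
      · show ((psi C n hC j i).map (cmap (fc C n false i))).ctgt =
          ((psi C n hC j i).map (cmap (fc C n true i))).ctgt
        rw [Cy.map_ctgt, Cy.map_ctgt, psi_ctgt]
        exact (bd_map_eq i false).2
    · show _ = ((psi C n hC j i).map (cmap (fc C n false i))).p0
      rw [Cy.map_p0, psi_p0]
      exact (fc_top C n false i).symm
    · show _ = ((psi C n hC j i).map (cmap (fc C n true i))).p0
      rw [Cy.map_p0, psi_p0]
      exact (fc_top C n true i).symm
    · show _ = ((psi C n hC j i).map (cmap (fc C n false i))).p1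
      rw [Cy.map_p1, psi_p1]
      exact (hzb false).symm
    · show _ = ((psi C n hC j i).map (cmap (fc C n true i))).p1
      rw [Cy.map_p1, psi_p1]
      exact (hzb true).symm

end Psi

/-! ### The homotopy `H'` (section 6c) -/

section HPrime

variable {C : GlobTheory.{u}} {n : ℕ} {hC : HasFillers C} {j : ℕ} {S : Shape} {Y1 : GlobModel C}
  {ι : freeOn C S ⟶ Y1} (J : JStep ι n) (e : J.K ≃ {v : Cell S.psh n // True})
  (he : ∀ k, J.a k = freeCell (e k).1)

/-- The image of a generator. -/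
noncomputable abbrev wc (ι : freeOn C S ⟶ Y1) {m : ℕ} (c : Cell S.psh m) : Y1.cells.cell m :=
  (cellsMap ι).app m (freeCell c)

theorem wc_face {k m : ℕ} (h : k < m) (b : Bool) (c : Cell S.psh m) :
    GM.bface Y1 h b (wc ι c) = wc ι (Cell.face S.psh h b c) := by
  rw [wc, ← GM.map_bface, face_freeCell]

/-- The new cell over a generator. -/
noncomputable def Hv (v : Cell S.psh n) : Y1.cells.cell (n + 1) := J.b (e.symm ⟨v, trivial⟩)

include he

theorem src_Hv (v : Cell S.psh n) : Y1.cells.src n (Hv J e v) = wc ι v := by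
  rw [Hv, J.src_b, he, Equiv.apply_symm_apply]

theorem hcomp {m : ℕ} (hm : n < m) (c : Cell S.psh m) :
    Y1.cells.src n (Hv J e (Cell.face S.psh hm false c)) = GM.bface Y1 hm false (wc ι c) := by
  rw [src_Hv J e he, wc_face]

/-- The classifying map of a generator of dimension `n + i + 1`. -/
noncomputable def gc (i : ℕ) (c : Cell S.psh (n + i + 1)) : U C n i ⟶ Y1 :=
  (uD C n i).lift (wc ι c) (Hv J e (Cell.face S.psh (show n < n + i + 1 by omega) false c))
    (hcomp J e he _ c)

theorem gc_top (i : ℕ) (c : Cell S.psh (n + i + 1)) :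
    (cellsMap (gc J e he i c)).app _ (top C n i) = wc ι c :=
  (uD C n i).lift_top _ _ _

theorem gc_H (i : ℕ) (c : Cell S.psh (n + i + 1)) :
    (cellsMap (gc J e he i c)).app _ (HH C n i) =
      Hv J e (Cell.face S.psh (show n < n + i + 1 by omega) false c) :=
  (uD C n i).lift_H _ _ _

theorem gc_face (i : ℕ) (b : Bool) (c : Cell S.psh (n + (i + 1) + 1)) :
    fc C n b i ≫ gc J e he (i + 1) c = gc J e he i (Cell.face S.psh (Nat.lt_succ_self _) b c) := by
  apply (uD C n i).hom_ext
  · show (cellsMap (gc J e he (i + 1) c)).app _ ((cellsMap (fc C n b i)).app _ (top C n i)) =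
      (cellsMap (gc J e he i _)).app _ (top C n i)
    rw [fc_top, GM.map_bface, gc_top, gc_top, wc_face]
  · show (cellsMap (gc J e he (i + 1) c)).app _ ((cellsMap (fc C n b i)).app _ (HH C n i)) =
      (cellsMap (gc J e he i _)).app _ (HH C n i)
    rw [fc_H, gc_H, gc_H]
    congr 1
    exact (Cell.face_face S.psh _ _ false b c).symm

variable (hC j) in
/-- The value of `H'` on a generator of dimension `n + i + 1`. -/
noncomputable def Xc (i : ℕ) (c : Cell S.psh (n + i + 1)) : Cy (cellsPsh Y1) (n + i + 1) :=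
  (psi C n hC j i).map (cmap (gc J e he i c))

omit he in
variable (hC j) in
/-- Auxiliary cast for `xc`. -/
noncomputable def xcAux (he : ∀ k, J.a k = freeCell (e k).1) (i m : ℕ) (h : m = n + i + 1)
    (c : Cell S.psh m) : Cy (cellsPsh Y1) m := by
  subst h
  exact Xc hC j J e he i c

variable (hC j) in
/-- The value of `H'` on a generator. -/
noncomputable def xc (m : ℕ) (c : Cell S.psh m) : Cy (cellsPsh Y1) m :=
  if h : n < m then xcAux hC j J e he (m - n - 1) m (by omega) c else Cy.marked (wc ι c)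

theorem xc_low {m : ℕ} (hm : m ≤ n) (c : Cell S.psh m) :
    xc hC j J e he m c = Cy.marked (wc ι c) := dif_neg (by omega)

theorem xc_high (i : ℕ) (c : Cell S.psh (n + i + 1)) :
    xc hC j J e he (n + i + 1) c = Xc hC j J e he i c := by
  rw [xc, dif_pos (by omega)]
  have key : ∀ (i' : ℕ) (h : n + i + 1 = n + i' + 1),
      xcAux hC j J e he i' (n + i + 1) h c = Xc hC j J e he i c := by
    intro i' h
    obtain rfl : i = i' := by omega
    rfl
  exact key _ _

theorem xc_valid (hConn : ∀ i, n + i + 1 ≤ j → GM.Conn (U C n i) (n + i + 1)) (m : ℕ)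
    (c : Cell S.psh m) : Cy.Valid (zOps hC Y1) (n + 1) j (xc hC j J e he m c) := by
  by_cases hm : m ≤ n
  · rw [xc_low J e he hm]
    trivial
  · obtain ⟨i, rfl⟩ : ∃ i, m = n + i + 1 := ⟨m - n - 1, by omega⟩
    rw [xc_high J e he]
    exact Cy.map_valid (zLaws hC _) (zNat hC _) _ (valid_psi (hConn i) (bdOK hConn i))

theorem xc_src (m : ℕ) (c : Cell S.psh (m + 1)) :
    (xc hC j J e he (m + 1) c).csrc =
      xc hC j J e he m (Cell.face S.psh (Nat.lt_succ_self m) false c) := by
  rcases lt_trichotomy m n with hm | hm | hm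
  · rw [xc_low J e he (by omega), xc_low J e he (by omega), ← wc_face]
    rfl
  · subst hm
    rw [xc_low J e he le_rfl, ← wc_face]
    have h1 := xc_high (hC := hC) (j := j) J e he 0 c
    refine (congrArg Cy.csrc h1).trans ?_
    show ((psi C m hC j 0).map (cmap (gc J e he 0 c))).csrc = _
    rw [Cy.map_csrc, psi_csrc]
    show Cy.marked _ = Cy.marked _
    congr 1
    exact (GM.map_bface _ _ false _).trans (congrArg _ (gc_top J e he 0 c))
  · obtain ⟨i, rfl⟩ : ∃ i, m = n + i + 1 := ⟨m - n - 1, by omega⟩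
    rw [xc_high J e he i]
    have h1 := xc_high (hC := hC) (j := j) J e he (i + 1) c
    refine (congrArg Cy.csrc h1).trans ?_
    show ((psi C n hC j (i + 1)).map (cmap (gc J e he (i + 1) c))).csrc = _
    rw [Cy.map_csrc, psi_csrc]
    show ((psi C n hC j i).map (cmap (fc C n false i))).map (cmap (gc J e he (i + 1) c)) = _
    rw [map_map, gc_face]
    rfl

theorem xc_tgt (m : ℕ) (c : Cell S.psh (m + 1)) :
    (xc hC j J e he (m + 1) c).ctgt =
      xc hC j J e he m (Cell.face S.psh (Nat.lt_succ_self m) true c) := by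
  rcases lt_trichotomy m n with hm | hm | hm
  · rw [xc_low J e he (by omega), xc_low J e he (by omega), ← wc_face]
    rfl
  · subst hm
    rw [xc_low J e he le_rfl, ← wc_face]
    have h1 := xc_high (hC := hC) (j := j) J e he 0 c
    refine (congrArg Cy.ctgt h1).trans ?_
    show ((psi C m hC j 0).map (cmap (gc J e he 0 c))).ctgt = _
    rw [Cy.map_ctgt, psi_ctgt]
    show Cy.marked _ = Cy.marked _
    congr 1
    exact (GM.map_bface _ _ true _).trans (congrArg _ (gc_top J e he 0 c))
  · obtain ⟨i, rfl⟩ : ∃ i, m = n + i + 1 := ⟨m - n - 1, by omega⟩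
    rw [xc_high J e he i]
    have h1 := xc_high (hC := hC) (j := j) J e he (i + 1) c
    refine (congrArg Cy.ctgt h1).trans ?_
    show ((psi C n hC j (i + 1)).map (cmap (gc J e he (i + 1) c))).ctgt = _
    rw [Cy.map_ctgt, psi_ctgt]
    show ((psi C n hC j i).map (cmap (fc C n true i))).map (cmap (gc J e he (i + 1) c)) = _
    rw [map_map, gc_face]
    rfl

theorem xc_p0 (m : ℕ) (c : Cell S.psh m) : (xc hC j J e he m c).p0 = wc ι c := by
  by_cases hm : m ≤ n
  · rw [xc_low J e he hm]
    rfl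
  · obtain ⟨i, rfl⟩ : ∃ i, m = n + i + 1 := ⟨m - n - 1, by omega⟩
    rw [xc_high J e he]
    show ((psi C n hC j i).map (cmap (gc J e he i c))).p0 = _
    rw [Cy.map_p0, psi_p0]
    exact gc_top J e he i c

theorem xc_p1_low {m : ℕ} (hm : m ≤ n) (c : Cell S.psh m) : (xc hC j J e he m c).p1 = wc ι c := by
  rw [xc_low J e he hm]
  rfl

theorem xc_p1_high {m : ℕ} (hm : n < m) (c : Cell S.psh m) :
    (xc hC j J e he m c).p1 = zc hC n (wc ι c) (Hv J e (Cell.face S.psh hm false c)) := by
  obtain ⟨i, rfl⟩ : ∃ i, m = n + i + 1 := ⟨m - n - 1, by omega⟩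
  rw [xc_high J e he]
  show ((psi C n hC j i).map (cmap (gc J e he i c))).p1 = _
  rw [Cy.map_p1, psi_p1]
  have h := zc_map hC (gc J e he i c) (show n + 1 ≤ n + i + 1 by omega) (hzz C n i)
  refine h.trans ?_
  rw [gc_top, gc_H]

/-- **Section 6c.** The homotopy `H'` from the identity to `θ`. -/
theorem exists_H' (hConn : ∀ i, n + i + 1 ≤ j → GM.Conn (U C n i) (n + i + 1))
    (CM : CylModel hC Y1 (n + 1) j) :
    ∃ H' : Y1 ⟶ CM.P, H' ≫ CM.p0 = 𝟙 Y1 ∧ ∀ θ : Y1 ⟶ Y1,
      (∀ (m : ℕ), m ≤ n → ∀ c : Cell S.psh m, (cellsMap θ).app m (wc ι c) = wc ι c) →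
      (∀ k, (cellsMap θ).app _ (J.b k) = J.b k) →
      (∀ (m : ℕ) (hm : n < m) (c : Cell S.psh m) (k : J.K),
        J.a k = freeCell (Cell.face S.psh hm false c) →
          (cellsMap θ).app m (wc ι c) = zc hC n (wc ι c) (J.b k)) →
      H' ≫ CM.p1 = θ := by
  -- the tuple
  let φ : ∀ m, (uL.obj S.psh).obj (op (GlobeObj.mk m)) → (cellsPsh CM.P).obj (op (GlobeObj.mk m)) :=
    fun m x => (CM.e m).symm ⟨xc hC j J e he m x.down, xc_valid J e he hConn m x.down⟩
  have hs : ∀ m x, φ m ((uL.obj S.psh).map (GlobeObj.σ m).op x) =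
      (cellsPsh CM.P).map (GlobeObj.σ m).op (φ (m + 1) x) := by
    intro m x
    apply (CM.e m).injective
    apply Subtype.ext
    refine Eq.trans (congrArg Subtype.val (Equiv.apply_symm_apply _ _)) ?_
    refine Eq.trans ?_ (CM.csrc_e m _)
    refine Eq.trans ?_ (congrArg Cy.csrc (congrArg Subtype.val
      (Equiv.apply_symm_apply (CM.e (m + 1)) _).symm))
    exact (xc_src J e he m x.down).symm
  have ht : ∀ m x, φ m ((uL.obj S.psh).map (GlobeObj.τ m).op x) =
      (cellsPsh CM.P).map (GlobeObj.τ m).op (φ (m + 1) x) := by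
    intro m x
    apply (CM.e m).injective
    apply Subtype.ext
    refine Eq.trans (congrArg Subtype.val (Equiv.apply_symm_apply _ _)) ?_
    refine Eq.trans ?_ (CM.ctgt_e m _)
    refine Eq.trans ?_ (congrArg Cy.ctgt (congrArg Subtype.val
      (Equiv.apply_symm_apply (CM.e (m + 1)) _).symm))
    exact (xc_tgt J e he m x.down).symm
  obtain ⟨g, hg⟩ := exists_free_lift (natOfFaces φ hs ht)
  have hg' : ∀ (m : ℕ) (c : Cell S.psh m), (cellsMap g).app m (freeCell c) =
      (CM.e m).symm ⟨xc hC j J e he m c, xc_valid J e he hConn m c⟩ := fun m c => hg m c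
  -- the new cells are marked
  have hz : ∀ k, CM.P.cells.src n ((CM.e (n + 1)).symm ⟨Cy.marked (J.b k), trivial⟩) =
      (cellsMap g).app n (J.a k) := by
    intro k
    rw [he k, hg']
    apply (CM.e n).injective
    apply Subtype.ext
    refine Eq.trans (CM.csrc_e n _).symm ?_
    refine Eq.trans (congrArg Cy.csrc (congrArg Subtype.val (Equiv.apply_symm_apply _ _))) ?_
    refine Eq.trans ?_ (congrArg Subtype.val (Equiv.apply_symm_apply _ _).symm)
    show Cy.csrc (@Cy.marked (cellsPsh Y1) _ (J.b k)) = xc hC j J e he n (e k).1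
    rw [xc_low J e he le_rfl]
    show @Cy.marked (cellsPsh Y1) n (Y1.cells.src n (J.b k)) = _
    rw [J.src_b, he k]
  obtain ⟨H', ⟨h1, h2⟩, -⟩ := J.univ CM.P g (fun k => (CM.e (n + 1)).symm ⟨Cy.marked (J.b k), trivial⟩) hz
  refine ⟨H', ?_, ?_⟩
  · refine J.hom_ext ?_ (fun k => ?_)
    · rw [← Category.assoc, h1, Category.comp_id]
      apply free_hom_ext
      intro m c
      show (cellsMap CM.p0).app m ((cellsMap g).app m (freeCell c)) = _
      rw [hg', CM.p0_e]
      refine Eq.trans (congrArg (fun y => Cy.p0 (Subtype.val y)) (Equiv.apply_symm_apply _ _)) ?_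
      exact xc_p0 J e he m c
    · show (cellsMap CM.p0).app _ ((cellsMap H').app _ (J.b k)) = J.b k
      rw [h2, CM.p0_e]
      exact congrArg (fun y => Cy.p0 (Subtype.val y)) (Equiv.apply_symm_apply _ _)
  · intro θ hθ1 hθ2 hθ3
    refine J.hom_ext ?_ (fun k => ?_)
    · rw [← Category.assoc, h1]
      apply free_hom_ext
      intro m c
      show (cellsMap CM.p1).app m ((cellsMap g).app m (freeCell c)) = (cellsMap θ).app m (wc ι c)
      rw [hg', CM.p1_e]
      refine Eq.trans (congrArg (fun y => Cy.p1 (Subtype.val y)) (Equiv.apply_symm_apply _ _)) ?_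
      by_cases hm : m ≤ n
      · rw [xc_p1_low J e he hm, hθ1 m hm]
      · have hm' : n < m := by omega
        rw [xc_p1_high J e he hm', hθ3 m hm' c (e.symm ⟨Cell.face S.psh hm' false c, trivial⟩)]
        · rfl
        · rw [he, Equiv.apply_symm_apply]
    · show (cellsMap CM.p1).app _ ((cellsMap H').app _ (J.b k)) = (cellsMap θ).app _ (J.b k)
      rw [h2, CM.p1_e, hθ2]
      exact congrArg (fun y => Cy.p1 (Subtype.val y)) (Equiv.apply_symm_apply _ _)

end HPrime

/-- **Section 6c/6d reduction.** To prove `Conn_j(Y1)` it suffices to have a map `θ : Y1 ⟶ Y1` fixing the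
generators of dimension `≤ n` and the new cells, with `θ w = L_n(H_v, L_n(inv H_v, w))` on the generators of
dimension `> n`, sending parallel `j`-cells to `Step`-related cells. -/
theorem conn_of_theta {C : GlobTheory.{u}} {hC : HasFillers C} {n j : ℕ} {S : Shape} {Y1 : GlobModel C}
    {ι : freeOn C S ⟶ Y1} (J : JStep ι n) (hY : IsY1 S n (fun _ => True) ι J)
    (h3 : Sec3 hC) (hU : ∀ i ≤ j, ConnAt hC (n + 1) i)
    (θ : Y1 ⟶ Y1)
    (hθ1 : ∀ (m : ℕ), m ≤ n → ∀ c : Cell S.psh m, (cellsMap θ).app m (wc ι c) = wc ι c)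
    (hθ2 : ∀ k, (cellsMap θ).app _ (J.b k) = J.b k)
    (hθ3 : ∀ (m : ℕ) (hm : n < m) (c : Cell S.psh m) (k : J.K),
        J.a k = freeCell (Cell.face S.psh hm false c) →
          (cellsMap θ).app m (wc ι c) = zc hC n (wc ι c) (J.b k))
    (hstep : ∀ u v : Y1.cells.cell j, Y1.cells.AreParallel j u v →
      Y1.cells.Step j ((cellsMap θ).app j u) ((cellsMap θ).app j v)) : GM.Conn Y1 j := by
  obtain ⟨e, he⟩ := hY
  have hCM : ∀ m, m ≤ j → ∀ U : GlobModel C, Nonempty (CylModel hC U (n + 1) m) :=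
    fun m hm U => h3 (n + 1) m (fun i hi => hU i (hi.trans hm)) U
  have hTI : ∀ k, k + 1 ≤ j → ∀ U : GlobModel C, TransportInv hC U (n + 1) k :=
    fun k hk U => transportInv_of_connAt hC (fun i hi => hU i (hi.trans hk))
  have hConn : ∀ i, n + i + 1 ≤ j → GM.Conn (U C n i) (n + i + 1) := by
    intro i hi
    obtain ⟨CM⟩ := hCM (n + i + 1) hi (U C n i)
    exact conn_U hC (by omega) (uD C n i).J (uD C n i).k0 (uD C n i).hk0 (uD C n i).ha CM
      (fun k hk => hTI k (by omega) _)
  obtain ⟨CM⟩ := hCM j le_rfl Y1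
  obtain ⟨H', h0, h1⟩ := exists_H' J e he hConn CM
  refine CM.conn_of_homotopy H' h0 θ (h1 θ hθ1 hθ2 hθ3) (fun k hk => ?_) hstep
  exact hTI k (by omega) _

end RerouteB

end Crest.Agent.Henry
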