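import Mathlib
import Crest.Prelude.Def_GlobularCoherator

/-!
# Trees: explicit description of globular sums (S0382, Henry's lemma)

`Crest.GeometryTopology.Coherator.Shape` is given by lists of globes, its realization `S.psh` by
iterated pushouts of presheaves.  Here we give the explicit planar-tree description.

* `Tree` : planar rooted trees, in the "snoc" encoding: `nil` is a vertex without children and
  `snoc t c` is `t` with one more (last) child `c`.
* `Tree.K t : GlobSet` : `m`-cells are the sectors at vertices of height `m`.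
* `Tree.psh t` : the corresponding presheaf on globes.
* `exists_tree_of_shape`, `exists_shape_of_tree`: every shape has a tree and conversely,
   with `S.psh ≅ t.psh` and `S.dim = t.height`.
* `Rg n X` : the insertion of a new `(n+1)`-cell `H v : v ⟶ v¹` at every `n`-cell `v`.
* `exists_insert`: for a shape `S` and `n` there is a shape `S''` with `S''.psh ≅ Rg n S.psh`.
-/

set_option autoImplicit false

namespace Crest.Agent.Henry.Trees

open CategoryTheory CategoryTheory.Limits Opposite
open Crest.GeometryTopology.Coherator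

universe u

/-! ### From globular sets to presheaves on globes -/

namespace GS

variable (X : GlobSet.{u})

/-- The iterated face of an `n`-cell in dimension `m < n`, on the side `b`. -/
def iface (m : ℕ) (b : Bool) : (n : ℕ) → m < n → X.cell n → X.cell m
  | 0, h, _ => absurd h (Nat.not_lt_zero _)
  | n + 1, h, x =>
    if hmn : m = n then by
      subst hmn
      exact if b then X.tgt m x else X.src m x
    else iface m b n (by omega) (X.src n x)

variable {X}

@[simp] lemma iface_self (m : ℕ) (b : Bool) (h : m < m + 1) (x : X.cell (m + 1)) :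
    iface X m b (m + 1) h x = if b then X.tgt m x else X.src m x := by
  simp [iface]

lemma iface_src {m n : ℕ} (b : Bool) (hmn : m < n) (h : m < n + 1) (x : X.cell (n + 1)) :
    iface X m b (n + 1) h x = iface X m b n hmn (X.src n x) := by
  have : m ≠ n := by omega
  simp [iface, this]

lemma iface_src_eq_tgt {m : ℕ} (b : Bool) : ∀ (n : ℕ) (hmn : m < n) (x : X.cell (n + 1)),
    iface X m b n hmn (X.src n x) = iface X m b n hmn (X.tgt n x)
  | 0, h, _ => absurd h (Nat.not_lt_zero _)
  | n + 1, hmn, x => by
    by_cases hm : m = n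
    · subst hm
      cases b
      · simpa using X.src_src m x
      · simpa using X.tgt_tgt m x
    · have h' : m < n := by omega
      rw [iface_src b h' hmn, iface_src b h' hmn, X.src_src]

lemma iface_tgt {m n : ℕ} (b : Bool) (hmn : m < n) (h : m < n + 1) (x : X.cell (n + 1)) :
    iface X m b (n + 1) h x = iface X m b n hmn (X.tgt n x) := by
  rw [iface_src b hmn h, iface_src_eq_tgt]

lemma iface_iface {m n : ℕ} (hmn : m < n) (b b' : Bool) : ∀ (k : ℕ) (hnk : n < k) (hmk : m < k)
    (x : X.cell k), iface X m b n hmn (iface X n b' k hnk x) = iface X m b k hmk x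
  | 0, h, _, _ => absurd h (Nat.not_lt_zero _)
  | k + 1, hnk, hmk, x => by
    by_cases hn : n = k
    · subst hn
      cases b'
      · simp [iface_src b hmn hmk]
      · simp [iface_tgt b hmn hmk]
    · have h' : n < k := by omega
      have h'' : m < k := by omega
      rw [iface_src b' h' hnk, iface_src b h'' hmk, iface_iface hmn b b' k h' h'']

variable (X)

/-- The action of an arrow of globes on cells of a globular set. -/
def arrowMap : {m n : ℕ} → GlobeObj.Arrow m n → X.cell n → X.cell m
  | _, _, .refl _ => id
  | _, _, .pole lt u => iface X _ u _ lt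

variable {X}

lemma arrowMap_seq : ∀ {m n k : ℕ} (f : GlobeObj.Arrow m n) (g : GlobeObj.Arrow n k) (x : X.cell k),
    arrowMap X (f.seq g) x = arrowMap X f (arrowMap X g x)
  | _, _, _, .refl _, _, _ => rfl
  | _, _, _, .pole _ _, .refl _, _ => rfl
  | _, _, _, .pole h b, .pole h' _, x => (iface_iface h b _ _ h' (h.trans h') x).symm

variable (X)

/-- The presheaf on globes of a globular set. -/
def psh : GlobPsh.{u} where
  obj a := X.cell a.unop.dim
  map f := ↾(arrowMap X f.unop)
  map_id a := rfl
  map_comp {a b c} f g := by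
    ext x
    exact arrowMap_seq g.unop f.unop x

@[simp] lemma psh_src (n : ℕ) (x : X.cell (n + 1)) :
    (psh X).toGlobSet.src n x = X.src n x := by
  change iface X n false (n + 1) (Nat.lt_succ_self n) x = _
  simp

@[simp] lemma psh_tgt (n : ℕ) (x : X.cell (n + 1)) :
    (psh X).toGlobSet.tgt n x = X.tgt n x := by
  change iface X n true (n + 1) (Nat.lt_succ_self n) x = _
  simp


variable {X}

/-- Maps of globular sets commute with iterated faces. -/
lemma map_iface {Y : GlobSet.{u}} (f : X.Map Y) {m : ℕ} (b : Bool) :
    ∀ (n : ℕ) (h : m < n) (x : X.cell n), f.app m (iface X m b n h x) = iface Y m b n h (f.app n x)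
  | 0, h, _ => absurd h (Nat.not_lt_zero _)
  | n + 1, h, x => by
    by_cases hm : m = n
    · subst hm
      cases b
      · simpa using f.app_src m x
      · simpa using f.app_tgt m x
    · have h' : m < n := by omega
      rw [iface_src b h' h, iface_src b h' h, map_iface f b n h', f.app_src]

lemma map_arrowMap {Y : GlobSet.{u}} (f : X.Map Y) {m n : ℕ} (a : GlobeObj.Arrow m n)
    (x : X.cell n) : f.app m (arrowMap X a x) = arrowMap Y a (f.app n x) := by
  cases a with
  | refl => rfl
  | pole h b => exact map_iface f b n h x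

/-- In a presheaf on globes every arrow acts by the iterated faces of the underlying globular set. -/
lemma presheaf_map_pole (P : GlobPsh.{u}) {m : ℕ} (b : Bool) :
    ∀ (n : ℕ) (h : m < n) (x : P.obj (op (GlobeObj.mk n))),
      P.map (Quiver.Hom.op (X := GlobeObj.mk m) (Y := GlobeObj.mk n) (GlobeObj.Arrow.pole h b)) x =
        iface P.toGlobSet m b n h x
  | 0, h, _ => absurd h (Nat.not_lt_zero _)
  | n + 1, h, x => by
    by_cases hm : m = n
    · subst hm
      refine Eq.trans ?_ (iface_self (X := P.toGlobSet) m b h x).symm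
      cases b <;> rfl
    · have h' : m < n := by omega
      refine Eq.trans ?_ (iface_src (X := P.toGlobSet) b h' h x).symm
      refine Eq.trans ?_ (presheaf_map_pole P b n h' (P.toGlobSet.src n x))
      have : (Quiver.Hom.op (X := GlobeObj.mk m) (Y := GlobeObj.mk (n + 1))
            (GlobeObj.Arrow.pole h b)) =
          (GlobeObj.σ n).op ≫ (Quiver.Hom.op (X := GlobeObj.mk m) (Y := GlobeObj.mk n)
            (GlobeObj.Arrow.pole h' b)) := rfl
      rw [this, P.map_comp]
      rfl

lemma presheaf_map_arrow (P : GlobPsh.{u}) {a b : GlobeObjᵒᵖ} (f : a ⟶ b)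
    (x : P.obj a) : P.map f x = arrowMap P.toGlobSet f.unop x := by
  obtain ⟨⟨n⟩⟩ := a
  obtain ⟨⟨m⟩⟩ := b
  change P.map (Quiver.Hom.op (X := GlobeObj.mk m) (Y := GlobeObj.mk n) f.unop) x = _
  generalize f.unop = g
  change GlobeObj.Arrow m n at g
  cases g with
  | refl =>
    change P.map (𝟙 _) x = x
    simp
  | pole h b => exact presheaf_map_pole P b n h x

/-- A map of underlying globular sets is a map of presheaves on globes. -/
def natOfMap {P Q : GlobPsh.{u}} (f : P.toGlobSet.Map Q.toGlobSet) : P ⟶ Q where
  app a := ↾(f.app a.unop.dim)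
  naturality {a b} φ := by
    ext x
    change f.app b.unop.dim (P.map φ x) = Q.map φ (f.app a.unop.dim x)
    exact (congrArg (f.app b.unop.dim) (presheaf_map_arrow P φ x)).trans
      ((map_arrowMap f φ.unop x).trans (presheaf_map_arrow Q φ _).symm)

@[simp] lemma natOfMap_app {P Q : GlobPsh.{u}} (f : P.toGlobSet.Map Q.toGlobSet) (n : ℕ)
    (x : P.obj (op (GlobeObj.mk n))) : (natOfMap f).app (op (GlobeObj.mk n)) x = f.app n x := rfl

/-- The map of globular sets underlying a map into `psh Y`. -/
def mkNat {P : GlobPsh.{u}} {Y : GlobSet.{u}} (app : ∀ n, P.toGlobSet.cell n → Y.cell n)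
    (hs : ∀ n x, app n (P.toGlobSet.src n x) = Y.src n (app (n + 1) x))
    (ht : ∀ n x, app n (P.toGlobSet.tgt n x) = Y.tgt n (app (n + 1) x)) : P ⟶ psh Y :=
  natOfMap
    { app := app
      app_src := fun n x => by rw [hs]; exact (psh_src Y n _).symm
      app_tgt := fun n x => by rw [ht]; exact (psh_tgt Y n _).symm }

@[simp] lemma mkNat_app {P : GlobPsh.{u}} {Y : GlobSet.{u}} (app : ∀ n, P.toGlobSet.cell n → Y.cell n)
    (hs : ∀ n x, app n (P.toGlobSet.src n x) = Y.src n (app (n + 1) x))
    (ht : ∀ n x, app n (P.toGlobSet.tgt n x) = Y.tgt n (app (n + 1) x)) (n : ℕ)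
    (x : P.obj (op (GlobeObj.mk n))) : (mkNat app hs ht).app (op (GlobeObj.mk n)) x = app n x := rfl

end GS

/-! ### Trees -/

/-- Planar rooted trees: `nil` is a vertex without children, `snoc t c` is `t` with a new last child
`c`. -/
inductive Tree : Type
  | nil : Tree
  | snoc (t c : Tree) : Tree

namespace Tree

/-- `m`-cells: sectors at the vertices of height `m`. -/
def Cell : Tree → ℕ → Type
  | nil, 0 => Unit
  | nil, _ + 1 => Empty
  | snoc t _, 0 => Option (Cell t 0)
  | snoc t c, m + 1 => Cell t (m + 1) ⊕ Cell c m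

/-- The last sector at the root. -/
def last : (t : Tree) → Cell t 0
  | nil => ()
  | snoc _ _ => none

/-- The source of a cell. -/
def src : (t : Tree) → (m : ℕ) → Cell t (m + 1) → Cell t m
  | nil, _, x => x.elim
  | snoc t _, 0, Sum.inl x => some (src t 0 x)
  | snoc t _, 0, Sum.inr _ => some (last t)
  | snoc t _, m + 1, Sum.inl x => Sum.inl (src t (m + 1) x)
  | snoc _ c, m + 1, Sum.inr x => Sum.inr (src c m x)

/-- The target of a cell. -/
def tgt : (t : Tree) → (m : ℕ) → Cell t (m + 1) → Cell t m
  | nil, _, x => x.elim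
  | snoc t _, 0, Sum.inl x => some (tgt t 0 x)
  | snoc _ _, 0, Sum.inr _ => none
  | snoc t _, m + 1, Sum.inl x => Sum.inl (tgt t (m + 1) x)
  | snoc _ c, m + 1, Sum.inr x => Sum.inr (tgt c m x)

lemma src_src : ∀ (t : Tree) (m : ℕ) (x : Cell t (m + 2)),
    src t m (src t (m + 1) x) = src t m (tgt t (m + 1) x)
  | nil, _, x => x.elim
  | snoc t _, 0, Sum.inl x => by
      simp only [src, tgt]; rw [src_src t 0 x]
  | snoc _ _, 0, Sum.inr _ => rfl
  | snoc t _, m + 1, Sum.inl x => by
      simp only [src, tgt]; rw [src_src t (m + 1) x]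
  | snoc _ c, m + 1, Sum.inr x => by
      simp only [src, tgt]; rw [src_src c m x]

lemma tgt_tgt : ∀ (t : Tree) (m : ℕ) (x : Cell t (m + 2)),
    tgt t m (src t (m + 1) x) = tgt t m (tgt t (m + 1) x)
  | nil, _, x => x.elim
  | snoc t _, 0, Sum.inl x => by
      simp only [src, tgt]; rw [tgt_tgt t 0 x]
  | snoc _ _, 0, Sum.inr _ => rfl
  | snoc t _, m + 1, Sum.inl x => by
      simp only [src, tgt]; rw [tgt_tgt t (m + 1) x]
  | snoc _ c, m + 1, Sum.inr x => by
      simp only [src, tgt]; rw [tgt_tgt c m x]

/-- The globular set of a tree. -/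
def K (t : Tree) : GlobSet.{0} where
  cell := Cell t
  src := src t
  tgt := tgt t
  src_src := src_src t
  tgt_tgt := tgt_tgt t

/-- The presheaf on globes of a tree. -/
def psh (t : Tree) : GlobPsh.{0} := GS.psh (K t)

/-- The height of a tree. -/
def height : Tree → ℕ
  | nil => 0
  | snoc t c => max (height t) (height c + 1)

/-- The depth of the rightmost leaf of a tree. -/
def rdepth : Tree → ℕ
  | nil => 0
  | snoc _ c => rdepth c + 1

/-- No cells above the height. -/
lemma isEmpty_cell : ∀ (t : Tree) (m : ℕ), height t < m → IsEmpty (Cell t m)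
  | nil, 0, h => absurd h (Nat.not_lt_zero _)
  | nil, _ + 1, _ => inferInstanceAs (IsEmpty Empty)
  | snoc _ _, 0, h => absurd h (Nat.not_lt_zero _)
  | snoc t c, m + 1, h => by
      have h1 : height t < m + 1 := lt_of_le_of_lt (le_max_left _ _) h
      have h2 : height c + 1 < m + 1 := lt_of_le_of_lt (le_max_right _ _) h
      have := isEmpty_cell t (m + 1) h1
      have := isEmpty_cell c m (by omega)
      exact inferInstanceAs (IsEmpty (Cell t (m + 1) ⊕ Cell c m))

/-! ### The last globe of a tree -/

open GlobeObj (Arrow)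

lemma arrow_le {m n : ℕ} (a : Arrow m n) : m ≤ n := by
  cases a with
  | refl => exact le_rfl
  | pole h _ => exact h.le

/-- Shift an arrow down. -/
def apred : {m n : ℕ} → Arrow (m + 1) (n + 1) → Arrow m n
  | _, _, .refl _ => .refl _
  | _, _, .pole h b => .pole (Nat.lt_of_succ_lt_succ h) b

/-- Shift an arrow up. -/
def asucc : {m n : ℕ} → Arrow m n → Arrow (m + 1) (n + 1)
  | _, _, .refl _ => .refl _
  | _, _, .pole h b => .pole (Nat.succ_lt_succ h) b

@[simp] lemma apred_asucc {m n : ℕ} (a : Arrow m n) : apred (asucc a) = a := by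
  cases a <;> rfl

@[simp] lemma asucc_apred : ∀ {m n : ℕ} (a : Arrow (m + 1) (n + 1)), asucc (apred a) = a
  | _, _, .refl _ => rfl
  | _, _, .pole _ _ => rfl

lemma apred_inj {m n : ℕ} {a b : Arrow (m + 1) (n + 1)} (h : apred a = apred b) : a = b := by
  rw [← asucc_apred a, ← asucc_apred b, h]

lemma apred_seq : ∀ {m n k : ℕ} (f : Arrow (m + 1) (n + 1)) (g : Arrow (n + 1) (k + 1)),
    apred (f.seq g) = (apred f).seq (apred g)
  | _, _, _, .refl _, _ => rfl
  | _, _, _, .pole _ _, .refl _ => rfl
  | _, _, _, .pole _ _, .pole _ _ => rfl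

/-- The cell of a tree named by an arrow into its rightmost globe (of dimension `L = rdepth t`). -/
def apexCell : (t : Tree) → (L : ℕ) → rdepth t = L → (m : ℕ) → Arrow m L → Cell t m
  | nil, _, _, 0, _ => ()
  | nil, L, h, m + 1, a => absurd (arrow_le a) (by simp only [rdepth] at h; omega)
  | snoc _ _, 0, h, _, _ => absurd h (by simp [rdepth])
  | snoc t _, _ + 1, _, 0, .pole _ false => some (last t)
  | snoc _ _, _ + 1, _, 0, .pole _ true => none
  | snoc _ c, L + 1, h, m + 1, a => Sum.inr (apexCell c L (by simpa [rdepth] using h) m (apred a))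

lemma apexCell_zero_true (t : Tree) (L : ℕ) (h : rdepth t = L) (hb : 0 < L) :
    apexCell t L h 0 (.pole hb true) = last t := by
  cases t with
  | nil => simp only [rdepth] at h; omega
  | snoc t c =>
    cases L with
    | zero => omega
    | succ L => rfl

lemma apex_src : ∀ (t : Tree) (L : ℕ) (h : rdepth t = L) (m : ℕ) (a : Arrow (m + 1) L),
    apexCell t L h m ((GlobeObj.σ m : Arrow m (m + 1)).seq a) = src t m (apexCell t L h (m + 1) a)
  | nil, L, h, m, a => absurd (arrow_le a) (by simp only [rdepth] at h; omega)
  | snoc _ _, 0, h, _, _ => absurd h (by simp [rdepth])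
  | snoc t c, L + 1, h, 0, a => by
      cases a <;> rfl
  | snoc t c, L + 1, h, m + 1, a => by
      have := apex_src c L (by simpa [rdepth] using h) m (apred a)
      simp only [apexCell, src]
      rw [← this, apred_seq]
      rfl

lemma apex_tgt : ∀ (t : Tree) (L : ℕ) (h : rdepth t = L) (m : ℕ) (a : Arrow (m + 1) L),
    apexCell t L h m ((GlobeObj.τ m : Arrow m (m + 1)).seq a) = tgt t m (apexCell t L h (m + 1) a)
  | nil, L, h, m, a => absurd (arrow_le a) (by simp only [rdepth] at h; omega)
  | snoc _ _, 0, h, _, _ => absurd h (by simp [rdepth])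
  | snoc t c, L + 1, h, 0, a => by
      cases a <;> rfl
  | snoc t c, L + 1, h, m + 1, a => by
      have := apex_tgt c L (by simpa [rdepth] using h) m (apred a)
      simp only [apexCell, tgt]
      rw [← this, apred_seq]
      rfl

lemma apex_injective : ∀ (t : Tree) (L : ℕ) (h : rdepth t = L) (m : ℕ) (a a' : Arrow m L),
    apexCell t L h m a = apexCell t L h m a' → a = a'
  | nil, L, h, 0, a, a', _ => by
      have hL : L = 0 := by simpa [rdepth] using h.symm
      subst hL
      cases a with
      | refl =>
        cases a' with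
        | refl => rfl
        | pole h' _ => omega
      | pole h' _ => omega
  | nil, L, h, m + 1, a, _, _ => absurd (arrow_le a) (by simp only [rdepth] at h; omega)
  | snoc _ _, 0, h, _, _, _, _ => absurd h (by simp [rdepth])
  | snoc t c, L + 1, h, 0, .pole _ false, .pole _ false, _ => rfl
  | snoc t c, L + 1, h, 0, .pole _ true, .pole _ true, _ => rfl
  | snoc t c, L + 1, h, 0, .pole _ false, .pole _ true, e => by
      simp [apexCell] at e
  | snoc t c, L + 1, h, 0, .pole _ true, .pole _ false, e => by
      simp [apexCell] at e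
  | snoc t c, L + 1, h, m + 1, a, a', e => by
      exact apred_inj (apex_injective c L (by simpa [rdepth] using h) m _ _ (Sum.inr.inj e))

/-- The map from the representable globe onto the rightmost globe of a tree. -/
noncomputable def apexNat (t : Tree) (L : ℕ) (h : rdepth t = L) : GlobPsh.globeRep L ⟶ psh t :=
  GS.mkNat (Y := K t) (fun m a => apexCell t L h m a)
    (fun m a => apex_src t L h m a) (fun m a => apex_tgt t L h m a)

@[simp] lemma apexNat_app (t : Tree) (L : ℕ) (h : rdepth t = L) (m : ℕ)
    (a : (GlobPsh.globeRep L).obj (op (GlobeObj.mk m))) :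
    (apexNat t L h).app (op (GlobeObj.mk m)) a = apexCell t L h m a := rfl

/-- The path: a tree with a single globe. -/
def pathT : ℕ → Tree
  | 0 => nil
  | k + 1 => snoc nil (pathT k)

@[simp] lemma rdepth_pathT : ∀ k, rdepth (pathT k) = k
  | 0 => rfl
  | k + 1 => by simp [pathT, rdepth, rdepth_pathT k]

@[simp] lemma height_pathT : ∀ k, height (pathT k) = k
  | 0 => rfl
  | k + 1 => by simp [pathT, height, height_pathT k]

lemma apex_path_surjective : ∀ (k L : ℕ) (h : rdepth (pathT k) = L) (m : ℕ) (y : Cell (pathT k) m),
    ∃ a, apexCell (pathT k) L h m a = y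
  | 0, L, h, 0, _ => by
      have hL : L = 0 := by simpa [pathT, rdepth] using h.symm
      subst hL
      exact ⟨.refl 0, rfl⟩
  | 0, _, _, _ + 1, y => y.elim
  | k + 1, 0, h, _, _ => absurd h (by simp [pathT, rdepth])
  | k + 1, L + 1, h, 0, y => by
      rcases y with _ | y
      · exact ⟨.pole (Nat.succ_pos L) true, rfl⟩
      · cases y
        exact ⟨.pole (Nat.succ_pos L) false, rfl⟩
  | k + 1, L + 1, h, m + 1, y => by
      rcases y with y | y
      · exact y.elim
      · obtain ⟨a, rfl⟩ := apex_path_surjective k L (by simpa [pathT, rdepth] using h) m y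
        refine ⟨asucc a, ?_⟩
        simp only [pathT, apexCell, apred_asucc] <;> rfl

/-- The rightmost globe of a path is everything. -/
lemma isIso_apexNat_path (k : ℕ) : IsIso (apexNat (pathT k) k (rdepth_pathT k)) := by
  rw [NatTrans.isIso_iff_isIso_app]
  intro a
  rw [isIso_iff_bijective]
  exact ⟨fun x y e => apex_injective _ _ _ a.unop.dim x y e,
    fun y => apex_path_surjective k k _ a.unop.dim y⟩

/-! ### Gluing one more globe -/

/-- Add a new child, a path of length `k`, at height `b` on the rightmost branch. -/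
def append : ℕ → Tree → ℕ → Tree
  | 0, t, k => snoc t (pathT k)
  | _ + 1, nil, _ => nil
  | b + 1, snoc t c, k => snoc t (append b c k)

/-- The inclusion into `append b t k`. -/
def inL : (b k : ℕ) → (t : Tree) → (m : ℕ) → Cell t m → Cell (append b t k) m
  | 0, _, _, 0, x => some x
  | 0, _, _, _ + 1, x => Sum.inl x
  | _ + 1, _, nil, _, x => x
  | _ + 1, _, snoc _ _, 0, x => x
  | _ + 1, _, snoc _ _, _ + 1, Sum.inl x => Sum.inl x
  | b + 1, k, snoc _ c, m + 1, Sum.inr y => Sum.inr (inL b k c m y)

lemma inL_src : ∀ (b k : ℕ) (t : Tree) (m : ℕ) (x : Cell t (m + 1)),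
    inL b k t m (src t m x) = src (append b t k) m (inL b k t (m + 1) x)
  | 0, _, _, 0, _ => rfl
  | 0, _, _, _ + 1, _ => rfl
  | _ + 1, _, nil, _, _ => rfl
  | _ + 1, _, snoc _ _, 0, Sum.inl _ => rfl
  | _ + 1, _, snoc _ _, 0, Sum.inr _ => rfl
  | _ + 1, _, snoc _ _, _ + 1, Sum.inl _ => rfl
  | b + 1, k, snoc _ c, m + 1, Sum.inr y => congrArg Sum.inr (inL_src b k c m y)

lemma inL_tgt : ∀ (b k : ℕ) (t : Tree) (m : ℕ) (x : Cell t (m + 1)),
    inL b k t m (tgt t m x) = tgt (append b t k) m (inL b k t (m + 1) x)
  | 0, _, _, 0, _ => rfl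
  | 0, _, _, _ + 1, _ => rfl
  | _ + 1, _, nil, _, _ => rfl
  | _ + 1, _, snoc _ _, 0, Sum.inl _ => rfl
  | _ + 1, _, snoc _ _, 0, Sum.inr _ => rfl
  | _ + 1, _, snoc _ _, _ + 1, Sum.inl _ => rfl
  | b + 1, k, snoc _ c, m + 1, Sum.inr y => congrArg Sum.inr (inL_tgt b k c m y)

lemma inL_injective : ∀ (b k : ℕ) (t : Tree) (m : ℕ), Function.Injective (inL b k t m)
  | 0, _, _, 0 => fun _ _ e => Option.some.inj e
  | 0, _, _, _ + 1 => fun _ _ e => Sum.inl.inj e
  | _ + 1, _, nil, _ => fun _ _ e => e
  | _ + 1, _, snoc _ _, 0 => fun _ _ e => e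
  | b + 1, k, snoc _ c, m + 1 => by
      rintro (x | x) (y | y) e
      · exact congrArg Sum.inl (Sum.inl.inj e)
      · cases e
      · cases e
      · exact congrArg Sum.inr (inL_injective b k c m (Sum.inr.inj e))

/-- The inclusion as a map of presheaves. -/
noncomputable def inLNat (b k : ℕ) (t : Tree) : psh t ⟶ psh (append b t k) :=
  GS.natOfMap
    { app := fun m x => inL b k t m x
      app_src := fun m x => by
        refine Eq.trans (congrArg _ (GS.psh_src (K t) m x)) ?_
        exact (inL_src b k t m x).trans (GS.psh_src (K (append b t k)) m _).symm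
      app_tgt := fun m x => by
        refine Eq.trans (congrArg _ (GS.psh_tgt (K t) m x)) ?_
        exact (inL_tgt b k t m x).trans (GS.psh_tgt (K (append b t k)) m _).symm }

@[simp] lemma inLNat_app (b k : ℕ) (t : Tree) (m : ℕ) (x : (psh t).obj (op (GlobeObj.mk m))) :
    (inLNat b k t).app (op (GlobeObj.mk m)) x = inL b k t m x := rfl

lemma rdepth_append : ∀ (b : ℕ) (t : Tree) (k : ℕ), b ≤ rdepth t → rdepth (append b t k) = b + 1 + k
  | 0, t, k, _ => by simp [append, rdepth]; omega
  | _ + 1, nil, _, h => by simp [rdepth] at h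
  | b + 1, snoc t c, k, h => by
      simp only [rdepth] at h
      simp only [append, rdepth, rdepth_append b c k (by omega)]
      omega

lemma height_append : ∀ (b : ℕ) (t : Tree) (k : ℕ), b ≤ rdepth t →
    height (append b t k) = max (height t) (b + 1 + k)
  | 0, t, k, _ => by simp [append, height]; omega
  | _ + 1, nil, _, h => by simp [rdepth] at h
  | b + 1, snoc t c, k, h => by
      simp only [rdepth] at h
      simp only [append, height, height_append b c k (by omega)]
      omega

/-- Hinge compatibility. -/
lemma inL_apex : ∀ (b k : ℕ) (t : Tree) (L L' : ℕ) (hL : rdepth t = L)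
    (hL' : rdepth (append b t k) = L') (hb : b < L) (hb' : b < L') (m : ℕ) (e : Arrow m b),
    inL b k t m (apexCell t L hL m (e.seq (.pole hb true))) =
      apexCell (append b t k) L' hL' m (e.seq (.pole hb' false))
  | 0, k, t, L, L', hL, hL', hb, hb', m, e => by
      cases e with
      | refl =>
        cases L' with
        | zero => omega
        | succ L' =>
          change some (apexCell t L hL 0 (.pole hb true)) = some (last t)
          rw [apexCell_zero_true]
      | pole h _ => omega
  | _ + 1, _, nil, L, _, hL, _, hb, _, _, _ => by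
      simp only [rdepth] at hL; omega
  | _ + 1, _, snoc _ _, 0, _, _, _, hb, _, _, _ => by omega
  | _ + 1, _, snoc _ _, _, 0, _, _, _, hb', _, _ => by omega
  | b + 1, k, snoc t c, L + 1, L' + 1, hL, hL', hb, hb', 0, e => by
      cases e with
      | pole h u => cases u <;> rfl
  | b + 1, k, snoc t c, L + 1, L' + 1, hL, hL', hb, hb', m + 1, e => by
      have := inL_apex b k c L L' (by simpa [rdepth] using hL)
        (by simpa [append, rdepth] using hL') (by omega) (by omega) m (apred e)
      simp only [apexCell, inL, append]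
      rw [apred_seq, apred_seq]
      exact congrArg Sum.inr this

/-- The pullback property of the gluing square. -/
lemma exists_of_inL_eq_apex : ∀ (b k : ℕ) (t : Tree) (L L' : ℕ) (hL : rdepth t = L)
    (hL' : rdepth (append b t k) = L') (hb : b < L) (hb' : b < L') (m : ℕ) (x : Cell t m)
    (a : Arrow m L'), inL b k t m x = apexCell (append b t k) L' hL' m a →
    ∃ e : Arrow m b, e.seq (.pole hb' false) = a ∧ apexCell t L hL m (e.seq (.pole hb true)) = x
  | 0, k, t, L, 0, hL, hL', hb, hb', m, x, a, _ => by omega
  | 0, k, t, L, L' + 1, hL, hL', hb, hb', 0, x, a, he => by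
      cases a with
      | pole h u =>
        cases u
        · refine ⟨.refl 0, rfl, ?_⟩
          have : some x = some (last t) := he
          rw [Option.some.inj this]
          exact apexCell_zero_true t L hL hb
        · have : some x = none := he
          simp at this
  | 0, k, t, L, L' + 1, hL, hL', hb, hb', m + 1, x, a, he => by
      cases he
  | _ + 1, _, nil, L, _, hL, _, hb, _, _, _, _, _ => by
      simp only [rdepth] at hL; omega
  | _ + 1, _, snoc _ _, 0, _, _, _, hb, _, _, _, _, _ => by omega
  | _ + 1, _, snoc _ _, _, 0, _, _, _, hb', _, _, _, _ => by omega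
  | b + 1, k, snoc t c, L + 1, L' + 1, hL, hL', hb, hb', 0, x, a, he => by
      cases a with
      | pole h u =>
        refine ⟨.pole (Nat.succ_pos b) u, rfl, ?_⟩
        cases u
        · exact he.symm
        · exact he.symm
  | b + 1, k, snoc t c, L + 1, L' + 1, hL, hL', hb, hb', m + 1, x, a, he => by
      rcases x with x | y
      · cases he
      · obtain ⟨e, h1, h2⟩ := exists_of_inL_eq_apex b k c L L' (by simpa [rdepth] using hL)
          (by simpa [append, rdepth] using hL') (by omega) (by omega) m y (apred a) (Sum.inr.inj he)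
        refine ⟨asucc e, ?_, ?_⟩
        · apply apred_inj
          rw [apred_seq, apred_asucc, ← h1]
          rfl
        · simp only [apexCell]
          rw [apred_seq, apred_asucc]
          exact congrArg Sum.inr h2

/-- Joint surjectivity of the gluing square. -/
lemma inL_or_apex : ∀ (b k : ℕ) (t : Tree) (L' : ℕ)
    (hL' : rdepth (append b t k) = L') (hb : b < rdepth t) (m : ℕ) (z : Cell (append b t k) m),
    (∃ x, inL b k t m x = z) ∨ ∃ a, apexCell (append b t k) L' hL' m a = z
  | 0, k, t, 0, hL', hb, m, z => absurd hL' (by simp [append, rdepth])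
  | 0, k, t, L' + 1, hL', hb, 0, z => by
      rcases z with _ | x
      · exact Or.inr ⟨.pole (Nat.succ_pos L') true, rfl⟩
      · exact Or.inl ⟨x, rfl⟩
  | 0, k, t, L' + 1, hL', hb, m + 1, z => by
      rcases z with x | y
      · exact Or.inl ⟨x, rfl⟩
      · obtain ⟨a, rfl⟩ := apex_path_surjective k L' (by simpa [append, rdepth] using hL') m y
        refine Or.inr ⟨asucc a, ?_⟩
        simp only [append, apexCell, apred_asucc] <;> rfl
  | _ + 1, _, nil, _, _, hb, _, _ => by simp [rdepth] at hb
  | _ + 1, _, snoc _ _, 0, hL', _, _, _ => absurd hL' (by simp [append, rdepth])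
  | b + 1, k, snoc t c, L' + 1, hL', hb, 0, z => Or.inl ⟨z, rfl⟩
  | b + 1, k, snoc t c, L' + 1, hL', hb, m + 1, z => by
      rcases z with x | y
      · exact Or.inl ⟨Sum.inl x, rfl⟩
      · rcases inL_or_apex b k c L' (by simpa [append, rdepth] using hL')
          (by simpa [rdepth] using hb) m y with ⟨x, rfl⟩ | ⟨a, rfl⟩
        · exact Or.inl ⟨Sum.inr x, rfl⟩
        · refine Or.inr ⟨asucc a, ?_⟩
          simp only [append, apexCell, apred_asucc] <;> rfl

/-! ### The gluing square is a pushout, and shapes are trees -/

open GlobPsh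

lemma seq_pole_injective {m b L : ℕ} (hb : b < L) (u : Bool) (x y : Arrow m b)
    (h : x.seq (.pole hb u) = y.seq (.pole hb u)) : x = y := by
  cases x with
  | refl =>
    cases y with
    | refl => rfl
    | pole h' _ => omega
  | pole hx ux =>
    cases y with
    | refl => omega
    | pole hy uy =>
      have : ux = uy := by
        have := congrArg (fun a : Arrow m L => match a with
          | .refl _ => ux
          | .pole _ v => v) h
        simpa [Arrow.seq] using this
      subst this
      rfl

/-- The gluing square of a tree. -/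
theorem isPushout_append (b k : ℕ) (t : Tree) (L L' : ℕ) (hL : rdepth t = L)
    (hL' : rdepth (append b t k) = L') (hb : b < L) (hb' : b < L') :
    IsPushout (globeRepFace hb true ≫ apexNat t L hL) (globeRepFace hb' false)
      (inLNat b k t) (apexNat (append b t k) L' hL') := by
  apply IsPushout.of_forall_isPushout_app
  intro X
  obtain ⟨⟨m⟩⟩ := X
  have hmono : Mono ((inLNat b k t).app (op (GlobeObj.mk m))) :=
    (mono_iff_injective _).2 (inL_injective b k t m)
  refine Types.isPushout_of_isPullback_of_mono' ?_ ?_ ?_
  · rw [Types.isPullback_iff]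
    refine ⟨?_, ?_, ?_⟩
    · ext (e : Arrow m b)
      exact inL_apex b k t L L' hL hL' hb hb' m e
    · rintro x y ⟨-, h⟩
      exact seq_pole_injective hb' false x y h
    · intro x a h
      obtain ⟨e, h1, h2⟩ := exists_of_inL_eq_apex b k t L L' hL hL' hb hb' m x a h
      exact ⟨e, h2, h1⟩
  · ext z
    simp only [Set.sup_eq_union, Set.mem_union, Set.mem_range, Set.mem_univ, iff_true]
    rcases inL_or_apex b k t L' hL' (by omega) m z with h | h
    · exact Or.inl h
    · exact Or.inr h
  · intro x y _ _ h
    exact apex_injective _ _ _ m x y h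

/-- The tree of a pasting scheme. -/
def ofPasting : {n : ℕ} → Pasting n → Tree
  | _, .single h => pathT h
  | _, .glue P b h _ _ => append b (ofPasting P) (h - b - 1)

lemma rdepth_ofPasting : ∀ {n : ℕ} (P : Pasting n), rdepth (ofPasting P) = n
  | _, .single h => rdepth_pathT h
  | _, .glue P b h hb hh => by
      simp only [ofPasting]
      rw [rdepth_append _ _ _ (by rw [rdepth_ofPasting P]; omega)]
      omega

lemma height_ofPasting : ∀ {n : ℕ} (P : Pasting n), height (ofPasting P) = P.dim
  | _, .single h => height_pathT h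
  | _, .glue P b h hb hh => by
      simp only [ofPasting, Pasting.dim]
      rw [height_append _ _ _ (by rw [rdepth_ofPasting P]; omega), height_ofPasting P]
      congr 1
      omega

/-- The realization of a pasting scheme is the presheaf of its tree, last globe to rightmost globe. -/
theorem exists_buildIso : ∀ {n : ℕ} (P : Pasting n),
    ∃ φ : P.build.1 ≅ psh (ofPasting P), P.build.2 ≫ φ.hom = apexNat (ofPasting P) n (rdepth_ofPasting P)
  | _, .single h => by
      have hi : IsIso (apexNat (pathT h) h (rdepth_pathT h)) := isIso_apexNat_path h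
      let e : globeRep h ≅ psh (pathT h) := asIso (apexNat (pathT h) h (rdepth_pathT h))
      exact ⟨e, Category.id_comp _⟩
  | _, .glue P b h hb hh => by
      obtain ⟨φ, hφ⟩ := exists_buildIso P
      have hrd := rdepth_ofPasting P
      have hL' : rdepth (append b (ofPasting P) (h - b - 1)) = h := by
        rw [rdepth_append _ _ _ (by omega)]
        omega
      have hP := isPushout_append b (h - b - 1) (ofPasting P) _ h hrd hL' hb hh
      have hP' : IsPushout (globeRepFace hb true ≫ P.build.2) (globeRepFace hh false)
          (φ.hom ≫ inLNat b (h - b - 1) (ofPasting P))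
          (apexNat (append b (ofPasting P) (h - b - 1)) h hL') := by
        refine IsPushout.of_iso hP (Iso.refl _) φ.symm (Iso.refl _) (Iso.refl _) ?_ ?_ ?_ ?_
        · simp [← hφ]
        · simp
        · simp
        · simp
      refine ⟨hP'.isoPushout.symm, ?_⟩
      exact hP'.inr_isoPushout_inv

/-! ### Every tree comes from a pasting scheme -/

/-- Attach `c` as a new last child at height `b` of the rightmost branch. -/
def attachAt : ℕ → Tree → Tree → Tree
  | 0, t, c => snoc t c
  | _ + 1, nil, _ => nil
  | b + 1, snoc t d, c => snoc t (attachAt b d c)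

lemma append_eq_attachAt : ∀ (b : ℕ) (t : Tree) (k : ℕ), append b t k = attachAt b t (pathT k)
  | 0, _, _ => rfl
  | _ + 1, nil, _ => rfl
  | b + 1, snoc t d, k => by simp only [append, attachAt, append_eq_attachAt b d k]

lemma attachAt_attachAt : ∀ (b : ℕ) (t c₀ c₁ : Tree),
    attachAt (b + 1) (attachAt b t c₀) c₁ = attachAt b t (snoc c₀ c₁)
  | 0, _, _, _ => rfl
  | _ + 1, nil, _, _ => rfl
  | b + 1, snoc t d, c₀, c₁ => by
      simp only [attachAt]
      have := attachAt_attachAt b d c₀ c₁
      simp only [this]

lemma attachAt_pathT_nil : ∀ k : ℕ, attachAt k (pathT k) nil = pathT (k + 1)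
  | 0 => rfl
  | k + 1 => by simp only [pathT, attachAt, attachAt_pathT_nil k]

lemma attachAt_append_nil : ∀ (b k n : ℕ) (t : Tree), n = b + 1 + k → b ≤ rdepth t →
    attachAt n (append b t k) nil = append b t (k + 1)
  | 0, k, n, t, hn, _ => by
      have : n = k + 1 := by omega
      subst this
      simp only [append, attachAt, attachAt_pathT_nil k]
      try rfl
  | _ + 1, _, _, nil, _, h => by simp [rdepth] at h
  | b + 1, k, n, snoc t c, hn, h => by
      have : n = (b + 1 + k) + 1 := by omega
      subst this
      simp only [rdepth] at h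
      simp only [append, attachAt]
      rw [attachAt_append_nil b k (b + 1 + k) c rfl (by omega)]

/-- Make the last globe one dimension higher. -/
def raise : {L : ℕ} → Pasting L → Pasting (L + 1)
  | _, .single h => .single (h + 1)
  | _, .glue P b h hb hh => .glue P b (h + 1) hb (by omega)

lemma ofPasting_raise : ∀ {L : ℕ} (P : Pasting L), ofPasting (raise P) = attachAt L (ofPasting P) nil
  | _, .single h => (attachAt_pathT_nil h).symm
  | _, .glue P b h hb hh => by
      simp only [raise, ofPasting]
      rw [attachAt_append_nil b (h - b - 1) h (ofPasting P) (by omega)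
        (by rw [rdepth_ofPasting]; omega)]
      congr 1
      omega

lemma exists_pasting_attach : ∀ (c : Tree) (b : ℕ) {L : ℕ} (P : Pasting L), b ≤ L →
    ∃ (L' : ℕ) (P' : Pasting L'), b + 1 ≤ L' ∧ ofPasting P' = attachAt b (ofPasting P) c
  | nil, b, L, P, hb => by
      rcases Nat.lt_or_ge b L with h | h
      · refine ⟨b + 1, .glue P b (b + 1) h (Nat.lt_succ_self b), le_rfl, ?_⟩
        simp only [ofPasting]
        rw [append_eq_attachAt]
        have : b + 1 - b - 1 = 0 := by omega
        rw [this]
        rfl
      · have : b = L := le_antisymm hb h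
        subst this
        exact ⟨b + 1, raise P, le_rfl, ofPasting_raise P⟩
  | snoc c₀ c₁, b, L, P, hb => by
      obtain ⟨L₀, P₀, h₀, e₀⟩ := exists_pasting_attach c₀ b P hb
      obtain ⟨L₁, P₁, h₁, e₁⟩ := exists_pasting_attach c₁ (b + 1) P₀ h₀
      refine ⟨L₁, P₁, by omega, ?_⟩
      rw [e₁, e₀, attachAt_attachAt]

/-- Every tree comes from a pasting scheme. -/
theorem exists_pasting : ∀ t : Tree, ∃ (L : ℕ) (P : Pasting L), ofPasting P = t
  | nil => ⟨0, .single 0, rfl⟩
  | snoc t c => by
      obtain ⟨L, P, rfl⟩ := exists_pasting t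
      obtain ⟨L', P', -, e⟩ := exists_pasting_attach c 0 P (Nat.zero_le _)
      exact ⟨L', P', e⟩

end Tree

/-- The tree of a shape. -/
def shapeTree (S : Shape) : Tree := Tree.ofPasting S.pasting

/-- The realization of a shape is the presheaf of its tree. -/
theorem exists_iso_shapeTree (S : Shape) : Nonempty (S.psh ≅ (shapeTree S).psh) :=
  let ⟨φ, _⟩ := Tree.exists_buildIso S.pasting
  ⟨φ⟩

theorem height_shapeTree (S : Shape) : (shapeTree S).height = S.dim :=
  Tree.height_ofPasting S.pasting

/-- Every tree is the tree of a shape. -/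
theorem exists_shape_of_tree (t : Tree) : ∃ S : Shape, shapeTree S = t :=
  let ⟨L, P, e⟩ := Tree.exists_pasting t
  ⟨⟨L, P⟩, e⟩

/-- A shape has no cells above its height. -/
theorem isEmpty_shape_cell (S : Shape) (m : ℕ) (hm : S.dim < m) :
    IsEmpty (S.psh.obj (op (GlobeObj.mk m))) := by
  obtain ⟨φ⟩ := exists_iso_shapeTree S
  have : IsEmpty (Tree.Cell (shapeTree S) m) :=
    Tree.isEmpty_cell _ _ (by rw [height_shapeTree]; exact hm)
  exact ⟨fun x => this.elim (φ.hom.app (op (GlobeObj.mk m)) x)⟩

/-! ### Insertion of new cells `H v : v ⟶ v¹` in dimension `n` -/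

/-- Cells of the insertion `Rg n X`: all cells of `X` outside dimension `n`, two copies `v⁰, v¹` of
each `n`-cell, and a new `(n + 1)`-cell `H v : v⁰ ⟶ v¹` for each `n`-cell. The `(n + 1)`-cells `e`
of `X` are re-sourced: `src (old e) = (src e)¹`, `tgt (old e) = (tgt e)⁰`. -/
inductive RCell (X : GlobSet.{u}) (n : ℕ) : ℕ → Type u
  | old {m : ℕ} (hm : m ≠ n) (x : X.cell m) : RCell X n m
  | two (x : X.cell n) (b : Bool) : RCell X n n
  | hor (x : X.cell n) : RCell X n (n + 1)

namespace RCell

variable {X : GlobSet.{u}} {n : ℕ}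

/-- Auxiliary form of the source. -/
def srcAux : {k : ℕ} → RCell X n k → (m : ℕ) → k = m + 1 → RCell X n m
  | _, .old hk x, m, e => by
    subst e
    exact if h : m = n then (by
      subst h
      exact .two (X.src m x) true) else .old h (X.src m x)
  | _, .two x _, m, h => by
    subst h
    exact .old (by omega) (X.src m x)
  | _, .hor x, m, h => by
    have hm : n = m := by omega
    subst hm
    exact .two x false

/-- Auxiliary form of the target. -/
def tgtAux : {k : ℕ} → RCell X n k → (m : ℕ) → k = m + 1 → RCell X n m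
  | _, .old hk x, m, e => by
    subst e
    exact if h : m = n then (by
      subst h
      exact .two (X.tgt m x) false) else .old h (X.tgt m x)
  | _, .two x _, m, h => by
    subst h
    exact .old (by omega) (X.tgt m x)
  | _, .hor x, m, h => by
    have hm : n = m := by omega
    subst hm
    exact .two x true

/-- The source in `Rg n X`. -/
def src (m : ℕ) (r : RCell X n (m + 1)) : RCell X n m := srcAux r m rfl

/-- The target in `Rg n X`. -/
def tgt (m : ℕ) (r : RCell X n (m + 1)) : RCell X n m := tgtAux r m rfl

@[simp] lemma src_old_self (hk : n + 1 ≠ n) (x : X.cell (n + 1)) :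
    src n (RCell.old hk x) = RCell.two (X.src n x) true := by
  simp [src, srcAux]

@[simp] lemma tgt_old_self (hk : n + 1 ≠ n) (x : X.cell (n + 1)) :
    tgt n (RCell.old hk x) = RCell.two (X.tgt n x) false := by
  simp [tgt, tgtAux]

lemma src_old_ne {m : ℕ} (hm : m ≠ n) (hk : m + 1 ≠ n) (x : X.cell (m + 1)) :
    src m (RCell.old hk x) = RCell.old hm (X.src m x) := by
  simp [src, srcAux, hm]

lemma tgt_old_ne {m : ℕ} (hm : m ≠ n) (hk : m + 1 ≠ n) (x : X.cell (m + 1)) :
    tgt m (RCell.old hk x) = RCell.old hm (X.tgt m x) := by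
  simp [tgt, tgtAux, hm]

@[simp] lemma src_two {m : ℕ} (x : X.cell (m + 1)) (b : Bool) :
    src (n := m + 1) m (RCell.two x b) = RCell.old (by omega) (X.src m x) := rfl

@[simp] lemma tgt_two {m : ℕ} (x : X.cell (m + 1)) (b : Bool) :
    tgt (n := m + 1) m (RCell.two x b) = RCell.old (by omega) (X.tgt m x) := rfl

@[simp] lemma src_hor (x : X.cell n) : src n (RCell.hor x) = RCell.two x false := rfl

@[simp] lemma tgt_hor (x : X.cell n) : tgt n (RCell.hor x) = RCell.two x true := rfl

lemma src_src : ∀ (n m : ℕ) (r : RCell X n (m + 2)), src m (src (m + 1) r) = src m (tgt (m + 1) r) := by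
  intro n m r
  cases r with
  | old hk x =>
    by_cases h1 : m + 1 = n
    · subst h1
      rw [src_old_self, tgt_old_self, src_two, src_two, X.src_src]
    · rw [src_old_ne h1 hk, tgt_old_ne h1 hk]
      by_cases h0 : m = n
      · subst h0
        rw [src_old_self, src_old_self, X.src_src]
      · rw [src_old_ne h0 h1, src_old_ne h0 h1, X.src_src]
  | two x b =>
    rw [src_two, tgt_two, src_old_ne (by omega) (by omega), src_old_ne (by omega) (by omega),
      X.src_src]
  | hor x => rfl

lemma tgt_tgt : ∀ (n m : ℕ) (r : RCell X n (m + 2)), tgt m (src (m + 1) r) = tgt m (tgt (m + 1) r) := by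
  intro n m r
  cases r with
  | old hk x =>
    by_cases h1 : m + 1 = n
    · subst h1
      rw [src_old_self, tgt_old_self, tgt_two, tgt_two, X.tgt_tgt]
    · rw [src_old_ne h1 hk, tgt_old_ne h1 hk]
      by_cases h0 : m = n
      · subst h0
        rw [tgt_old_self, tgt_old_self, X.tgt_tgt]
      · rw [tgt_old_ne h0 h1, tgt_old_ne h0 h1, X.tgt_tgt]
  | two x b =>
    rw [src_two, tgt_two, tgt_old_ne (by omega) (by omega), tgt_old_ne (by omega) (by omega),
      X.tgt_tgt]
  | hor x => rfl

/-- Functoriality of the insertion. -/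
def map {Y : GlobSet.{u}} (f : X.Map Y) : {m : ℕ} → RCell X n m → RCell Y n m
  | _, .old h x => .old h (f.app _ x)
  | _, .two x b => .two (f.app _ x) b
  | _, .hor x => .hor (f.app _ x)

lemma map_srcAux {Y : GlobSet.{u}} (f : X.Map Y) {k : ℕ} (r : RCell X n k) (m : ℕ) (e : k = m + 1) :
    map f (srcAux r m e) = srcAux (map f r) m e := by
  cases r with
  | old hk' x =>
    subst e
    by_cases h0 : m = n
    · subst h0
      have h1 := src_old_self (X := X) hk' x
      have h2 := src_old_self (X := Y) hk' (f.app _ x)
      change map f (src m _) = src m (RCell.old hk' (f.app _ x))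
      rw [h1, h2]
      exact congrArg (fun z => RCell.two z true) (f.app_src m x)
    · have h1 := src_old_ne (X := X) h0 hk' x
      have h2 := src_old_ne (X := Y) h0 hk' (f.app _ x)
      change map f (src m _) = src m _
      rw [h1]
      change _ = src m (RCell.old hk' (f.app _ x))
      rw [h2]
      exact congrArg (RCell.old h0) (f.app_src m x)
  | two x b =>
    subst e
    exact congrArg (RCell.old (by omega)) (f.app_src m x)
  | hor x =>
    have : n = m := by omega
    subst this
    rfl

lemma map_tgtAux {Y : GlobSet.{u}} (f : X.Map Y) {k : ℕ} (r : RCell X n k) (m : ℕ) (e : k = m + 1) :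
    map f (tgtAux r m e) = tgtAux (map f r) m e := by
  cases r with
  | old hk' x =>
    subst e
    by_cases h0 : m = n
    · subst h0
      have h1 := tgt_old_self (X := X) hk' x
      have h2 := tgt_old_self (X := Y) hk' (f.app _ x)
      change map f (tgt m _) = tgt m (RCell.old hk' (f.app _ x))
      rw [h1, h2]
      exact congrArg (fun z => RCell.two z false) (f.app_tgt m x)
    · have h1 := tgt_old_ne (X := X) h0 hk' x
      have h2 := tgt_old_ne (X := Y) h0 hk' (f.app _ x)
      change map f (tgt m _) = tgt m _
      rw [h1]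
      change _ = tgt m (RCell.old hk' (f.app _ x))
      rw [h2]
      exact congrArg (RCell.old h0) (f.app_tgt m x)
  | two x b =>
    subst e
    exact congrArg (RCell.old (by omega)) (f.app_tgt m x)
  | hor x =>
    have : n = m := by omega
    subst this
    rfl

lemma map_src {Y : GlobSet.{u}} (f : X.Map Y) (m : ℕ) (r : RCell X n (m + 1)) :
    map f (src m r) = src m (map f r) := map_srcAux f r m rfl

lemma map_tgt {Y : GlobSet.{u}} (f : X.Map Y) (m : ℕ) (r : RCell X n (m + 1)) :
    map f (tgt m r) = tgt m (map f r) := map_tgtAux f r m rfl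

lemma map_injective {Y : GlobSet.{u}} (f : X.Map Y) (hf : ∀ m, Function.Injective (f.app m))
    (m : ℕ) : Function.Injective (map (n := n) (m := m) f) := by
  intro a b h
  cases a with
  | old h₁ x =>
    cases b with
    | old h₂ y =>
      have : f.app _ x = f.app _ y := by
        simpa [map] using h
      rw [hf _ this]
    | two y b => exact absurd rfl h₁
    | hor y => cases h
  | two x c =>
    cases b with
    | old h₂ y => exact absurd rfl h₂
    | two y d =>
      simp only [map, two.injEq] at h
      rw [hf _ h.1, h.2]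
  | hor x =>
    cases b with
    | old h₂ y => cases h
    | hor y =>
      simp only [map, hor.injEq] at h
      rw [hf _ h]

lemma map_surjective {Y : GlobSet.{u}} (f : X.Map Y) (hf : ∀ m, Function.Surjective (f.app m))
    (m : ℕ) : Function.Surjective (map (n := n) (m := m) f) := by
  intro r
  cases r with
  | old h y =>
    obtain ⟨x, rfl⟩ := hf _ y
    exact ⟨.old h x, rfl⟩
  | two y b =>
    obtain ⟨x, rfl⟩ := hf _ y
    exact ⟨.two x b, rfl⟩
  | hor y =>
    obtain ⟨x, rfl⟩ := hf _ y
    exact ⟨.hor x, rfl⟩

lemma map_bijective {Y : GlobSet.{u}} (f : X.Map Y) (hf : ∀ m, Function.Bijective (f.app m)) (m : ℕ) :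
    Function.Bijective (map (n := n) (m := m) f) :=
  ⟨map_injective f (fun m => (hf m).1) m, map_surjective f (fun m => (hf m).2) m⟩

end RCell

/-- The insertion of a new `(n + 1)`-cell `H v : v⁰ ⟶ v¹` at every `n`-cell `v`. -/
def Rg (n : ℕ) (X : GlobSet.{u}) : GlobSet.{u} where
  cell := RCell X n
  src := RCell.src
  tgt := RCell.tgt
  src_src := RCell.src_src n
  tgt_tgt := RCell.tgt_tgt n

/-- Functoriality of the insertion. -/
def Rg.map (n : ℕ) {X Y : GlobSet.{u}} (f : X.Map Y) : (Rg n X).Map (Rg n Y) where
  app _ := RCell.map f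
  app_src m r := RCell.map_src f m r
  app_tgt m r := RCell.map_tgt f m r

namespace GS

variable {X Y : GlobSet.{u}}

/-- A map of globular sets as a map of presheaves. -/
def pshMap (f : X.Map Y) : psh X ⟶ psh Y where
  app a := ↾(f.app a.unop.dim)
  naturality {a b} φ := by
    ext x
    exact map_arrowMap f φ.unop x

lemma isIso_pshMap (f : X.Map Y) (hf : ∀ m, Function.Bijective (f.app m)) : IsIso (pshMap f) := by
  rw [NatTrans.isIso_iff_isIso_app]
  intro a
  rw [isIso_iff_bijective]
  exact hf _

/-- The globular set of a presheaf: a natural iso of the underlying map. -/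
def toGlobSetIsoMap {P : GlobPsh.{u}} {Q : GlobSet.{u}} (φ : P ⟶ psh Q) : P.toGlobSet.Map Q where
  app n := φ.app (op (GlobeObj.mk n))
  app_src n x := by
    refine Eq.trans ((GlobPsh.toGlobSetMap φ).app_src n x) ?_
    exact psh_src Q n _
  app_tgt n x := by
    refine Eq.trans ((GlobPsh.toGlobSetMap φ).app_tgt n x) ?_
    exact psh_tgt Q n _

end GS

namespace Tree

/-- The tree with a new leaf `H v` at each sector `v` at height `n`. -/
def ins : ℕ → Tree → Tree
  | 0, nil => snoc nil nil
  | 0, snoc t c => snoc (snoc (ins 0 t) c) nil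
  | _ + 1, nil => nil
  | n + 1, snoc t c => snoc (ins (n + 1) t) (ins n c)

lemma height_ins : ∀ (n : ℕ) (t : Tree), height (ins n t) ≤ max (height t) (n + 1)
  | 0, nil => by simp [ins, height]
  | 0, snoc t c => by
      have := height_ins 0 t
      simp only [ins, height]
      omega
  | n + 1, nil => by simp [ins, height]
  | n + 1, snoc t c => by
      have h1 := height_ins (n + 1) t
      have h2 := height_ins n c
      simp only [ins, height]
      omega

/-- The inclusion of `t` in `snoc t c`. -/
def inclL (t c : Tree) : (K t).Map (K (snoc t c)) where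
  app
    | 0, x => some x
    | _ + 1, x => Sum.inl x
  app_src
    | 0, _ => rfl
    | _ + 1, _ => rfl
  app_tgt
    | 0, _ => rfl
    | _ + 1, _ => rfl

/-- The inclusion of the child `c` in `snoc t c`, raising dimensions by one. -/
def liftR (t c : Tree) {n : ℕ} : {m : ℕ} → RCell (K c) n m → RCell (K (snoc t c)) (n + 1) (m + 1)
  | _, .old h x => .old (by omega) (Sum.inr x)
  | _, .two x b => .two (Sum.inr x) b
  | _, .hor x => .hor (Sum.inr x)

/-- The value of the comparison at the last sector. -/
def lastR : (n : ℕ) → (t : Tree) → RCell (K t) n 0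
  | 0, t => .two (last t) true
  | _ + 1, t => .old (by omega) (last t)

/-- `f` is an isomorphism of the inserted tree with the insertion. -/
structure IsPhi (n : ℕ) (t : Tree) (f : ∀ m, Cell (ins n t) m → RCell (K t) n m) : Prop where
  src : ∀ m x, f m (Tree.src _ m x) = RCell.src m (f (m + 1) x)
  tgt : ∀ m x, f m (Tree.tgt _ m x) = RCell.tgt m (f (m + 1) x)
  last : f 0 (Tree.last _) = lastR n t
  bij : ∀ m, Function.Bijective (f m)

/-- The comparison for `ins 0 nil`. -/
def phi00 : (m : ℕ) → Cell (ins 0 nil) m → RCell (K nil) 0 m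
  | 0, some () => .two () false
  | 0, none => .two () true
  | 1, Sum.inl x => x.elim
  | 1, Sum.inr () => .hor ()
  | _ + 2, Sum.inl x => x.elim
  | _ + 2, Sum.inr x => x.elim

lemma isPhi00 : IsPhi 0 nil phi00 where
  src m x := by
    match m, x with
    | 0, Sum.inl x => exact x.elim
    | 0, Sum.inr () => rfl
    | _ + 1, Sum.inl x => exact x.elim
    | _ + 1, Sum.inr x => exact x.elim
  tgt m x := by
    match m, x with
    | 0, Sum.inl x => exact x.elim
    | 0, Sum.inr () => rfl
    | _ + 1, Sum.inl x => exact x.elim
    | _ + 1, Sum.inr x => exact x.elim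
  last := rfl
  bij m := by
    constructor
    · intro a b h
      match m, a, b with
      | 0, some (), some () => rfl
      | 0, none, none => rfl
      | 0, some (), none => cases h
      | 0, none, some () => cases h
      | 1, Sum.inr (), Sum.inr () => rfl
      | 1, Sum.inl x, _ => exact x.elim
      | 1, _, Sum.inl x => exact x.elim
      | _ + 2, Sum.inl x, _ => exact x.elim
      | _ + 2, Sum.inr x, _ => exact x.elim
    · intro r
      cases r with
      | old hm x =>
        match m, hm, x with
        | 0, hm, _ => exact absurd rfl hm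
        | _ + 1, _, x => exact x.elim
      | two x b =>
        cases b
        · exact ⟨some (), rfl⟩
        · exact ⟨none, rfl⟩
      | hor x => exact ⟨Sum.inr (), rfl⟩

lemma inclL_injective (t c : Tree) (m : ℕ) : Function.Injective ((inclL t c).app m) := by
  intro a b h
  match m with
  | 0 => exact Option.some.inj h
  | _ + 1 => exact Sum.inl.inj h

lemma map_inclL_ne_two (t c : Tree) (r : RCell (K t) 0 0) (w : (K (snoc t c)).cell 0) (b : Bool)
    (hw : w = none := by rfl) : RCell.map (inclL t c) r ≠ .two w b := by
  subst hw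
  cases r with
  | old hm x => exact absurd rfl hm
  | two x d => intro h; cases h

lemma map_inclL_ne_old (t c : Tree) {m : ℕ} (r : RCell (K t) 0 (m + 1)) (h : m + 1 ≠ 0)
    (z : Cell c m) : RCell.map (inclL t c) r ≠ .old h (Sum.inr z) := by
  cases r with
  | old hm x => intro h; cases h
  | hor x => intro h; cases h

lemma map_inclL_ne_hor (t c : Tree) (r : RCell (K t) 0 1) :
    RCell.map (inclL t c) r ≠ .hor none := by
  cases r with
  | old hm x => intro h; cases h
  | hor x => intro h; cases h

/-- The new cell in dimension `1`. -/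
def nilCase (X : GlobSet.{0}) (v : X.cell 0) : (m : ℕ) → Cell nil m → RCell X 0 (m + 1)
  | 0, _ => .hor v
  | _ + 1, x => x.elim

/-- The comparison for `ins 0 (snoc t c)`. -/
def phi0 (t c : Tree) (f : ∀ m, Cell (ins 0 t) m → RCell (K t) 0 m) :
    (m : ℕ) → Cell (ins 0 (snoc t c)) m → RCell (K (snoc t c)) 0 m
  | 0, none => .two none true
  | 0, some none => .two none false
  | 0, some (some y) => RCell.map (inclL t c) (f 0 y)
  | m + 1, Sum.inl (Sum.inl y) => RCell.map (inclL t c) (f (m + 1) y)
  | _ + 1, Sum.inl (Sum.inr z) => .old (by omega) (Sum.inr z)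
  | m + 1, Sum.inr x => nilCase _ none m x

lemma isPhi0 (t c : Tree) {f : ∀ m, Cell (ins 0 t) m → RCell (K t) 0 m} (hf : IsPhi 0 t f) :
    IsPhi 0 (snoc t c) (phi0 t c f) where
  src m x := by
    match m, x with
    | 0, Sum.inl (Sum.inl y) =>
      exact (congrArg (RCell.map (inclL t c)) (hf.src 0 y)).trans (RCell.map_src (inclL t c) 0 _)
    | 0, Sum.inl (Sum.inr z) =>
      exact congrArg (RCell.map (inclL t c)) hf.last
    | 0, Sum.inr _ => rfl
    | m + 1, Sum.inl (Sum.inl y) =>
      exact (congrArg (RCell.map (inclL t c)) (hf.src (m + 1) y)).trans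
        (RCell.map_src (inclL t c) (m + 1) _)
    | m + 1, Sum.inl (Sum.inr z) =>
      exact (RCell.src_old_ne (X := K (snoc t c)) (n := 0) (m := m + 1) (by omega) (by omega) (Sum.inr z)).symm
    | m + 1, Sum.inr x => exact x.elim
  tgt m x := by
    match m, x with
    | 0, Sum.inl (Sum.inl y) =>
      exact (congrArg (RCell.map (inclL t c)) (hf.tgt 0 y)).trans (RCell.map_tgt (inclL t c) 0 _)
    | 0, Sum.inl (Sum.inr z) => rfl
    | 0, Sum.inr _ => rfl
    | m + 1, Sum.inl (Sum.inl y) =>
      exact (congrArg (RCell.map (inclL t c)) (hf.tgt (m + 1) y)).trans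
        (RCell.map_tgt (inclL t c) (m + 1) _)
    | m + 1, Sum.inl (Sum.inr z) =>
      exact (RCell.tgt_old_ne (X := K (snoc t c)) (n := 0) (m := m + 1) (by omega) (by omega) (Sum.inr z)).symm
    | m + 1, Sum.inr x => exact x.elim
  last := rfl
  bij m := by
    match m with
    | 0 =>
      constructor
      · intro a b h
        match a, b with
        | none, none => rfl
        | none, some none => cases h
        | none, some (some y) =>
          exact absurd h.symm (map_inclL_ne_two t c _ _ _)
        | some none, none => cases h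
        | some none, some none => rfl
        | some none, some (some y) =>
          exact absurd h.symm (map_inclL_ne_two t c _ _ _)
        | some (some y), none =>
          exact absurd h (map_inclL_ne_two t c _ _ _)
        | some (some y), some none =>
          exact absurd h (map_inclL_ne_two t c _ _ _)
        | some (some y), some (some y') =>
          rw [(hf.bij 0).1 (RCell.map_injective (inclL t c) (inclL_injective t c) 0 h)]
      · intro r
        cases r with
        | old hm x => exact absurd rfl hm
        | two x b =>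
          match x, b with
          | none, true => exact ⟨none, rfl⟩
          | none, false => exact ⟨some none, rfl⟩
          | some x, b =>
            obtain ⟨y, hy⟩ := (hf.bij 0).2 (.two x b)
            exact ⟨some (some y), congrArg (RCell.map (inclL t c)) hy⟩
    | m + 1 =>
      constructor
      · intro a b h
        match m, a, b with
        | m, Sum.inl (Sum.inl y), Sum.inl (Sum.inl y') =>
          rw [(hf.bij _).1 (RCell.map_injective (inclL t c) (inclL_injective t c) _ h)]
        | m, Sum.inl (Sum.inl y), Sum.inl (Sum.inr z) =>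
          exact absurd h (map_inclL_ne_old t c _ _ _)
        | m, Sum.inl (Sum.inr z), Sum.inl (Sum.inl y) =>
          exact absurd h.symm (map_inclL_ne_old t c _ _ _)
        | m, Sum.inl (Sum.inr z), Sum.inl (Sum.inr z') =>
          rw [Sum.inr.inj (RCell.old.inj h)]
        | 0, Sum.inl (Sum.inl y), Sum.inr x =>
          exact absurd h (map_inclL_ne_hor t c _)
        | 0, Sum.inr x, Sum.inl (Sum.inl y) =>
          exact absurd h.symm (map_inclL_ne_hor t c _)
        | 0, Sum.inl (Sum.inr z), Sum.inr x => cases h
        | 0, Sum.inr x, Sum.inl (Sum.inr z) => cases h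
        | 0, Sum.inr (), Sum.inr () => rfl
        | _ + 1, Sum.inr x, _ => exact x.elim
        | _ + 1, _, Sum.inr x => exact x.elim
      · intro r
        cases r with
        | old hm x =>
          match x with
          | Sum.inl x =>
            obtain ⟨y, hy⟩ := (hf.bij _).2 (.old hm x)
            exact ⟨Sum.inl (Sum.inl y), congrArg (RCell.map (inclL t c)) hy⟩
          | Sum.inr z => exact ⟨Sum.inl (Sum.inr z), rfl⟩
        | hor x =>
          match x with
          | none => exact ⟨Sum.inr (), rfl⟩
          | some x =>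
            obtain ⟨y, hy⟩ := (hf.bij _).2 (.hor x)
            exact ⟨Sum.inl (Sum.inl y), congrArg (RCell.map (inclL t c)) hy⟩

/-- The comparison for `ins (n + 1) nil`. -/
def phiS (n : ℕ) : (m : ℕ) → Cell (ins (n + 1) nil) m → RCell (K nil) (n + 1) m
  | 0, () => .old (by omega) ()
  | _ + 1, x => x.elim

lemma isPhiS (n : ℕ) : IsPhi (n + 1) nil (phiS n) where
  src m x := x.elim
  tgt m x := x.elim
  last := rfl
  bij m := by
    constructor
    · intro a b h
      match m, a, b with
      | 0, (), () => rfl
      | _ + 1, x, _ => exact x.elim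
    · intro r
      cases r with
      | old hm x =>
        match m, hm, x with
        | 0, hm, () => exact ⟨(), rfl⟩
        | _ + 1, _, x => exact x.elim
      | two x b => exact x.elim
      | hor x => exact x.elim

/-- The comparison for `ins (n + 1) (snoc t c)`. -/
def phiSS (t c : Tree) (n : ℕ) (f : ∀ m, Cell (ins (n + 1) t) m → RCell (K t) (n + 1) m)
    (g : ∀ m, Cell (ins n c) m → RCell (K c) n m) :
    (m : ℕ) → Cell (ins (n + 1) (snoc t c)) m → RCell (K (snoc t c)) (n + 1) m
  | 0, none => .old (by omega) none
  | 0, some y => RCell.map (inclL t c) (f 0 y)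
  | m + 1, Sum.inl y => RCell.map (inclL t c) (f (m + 1) y)
  | m + 1, Sum.inr z => liftR t c (g m z)

lemma liftR_srcAux (t c : Tree) {n k : ℕ} (r : RCell (K c) n k) (m : ℕ) (e : k = m + 1) :
    liftR t c (RCell.srcAux r m e) = RCell.src (m + 1) (liftR t c (e ▸ r)) := by
  cases r with
  | old hk x =>
    subst e
    by_cases h0 : m = n
    · subst h0
      have h1 := RCell.src_old_self (X := K c) hk x
      change liftR t c (RCell.src m (RCell.old hk x)) = _
      rw [h1]
      exact (RCell.src_old_self (X := K (snoc t c)) (by omega) (Sum.inr x)).symm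
    · have h1 := RCell.src_old_ne (X := K c) h0 hk x
      change liftR t c (RCell.src m (RCell.old hk x)) = _
      rw [h1]
      exact (RCell.src_old_ne (X := K (snoc t c)) (by omega) (by omega) (Sum.inr x)).symm
  | two x b =>
    subst e
    rfl
  | hor x =>
    have : n = m := by omega
    subst this
    rfl

lemma liftR_tgtAux (t c : Tree) {n k : ℕ} (r : RCell (K c) n k) (m : ℕ) (e : k = m + 1) :
    liftR t c (RCell.tgtAux r m e) = RCell.tgt (m + 1) (liftR t c (e ▸ r)) := by
  cases r with
  | old hk x =>
    subst e
    by_cases h0 : m = n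
    · subst h0
      have h1 := RCell.tgt_old_self (X := K c) hk x
      change liftR t c (RCell.tgt m (RCell.old hk x)) = _
      rw [h1]
      exact (RCell.tgt_old_self (X := K (snoc t c)) (by omega) (Sum.inr x)).symm
    · have h1 := RCell.tgt_old_ne (X := K c) h0 hk x
      change liftR t c (RCell.tgt m (RCell.old hk x)) = _
      rw [h1]
      exact (RCell.tgt_old_ne (X := K (snoc t c)) (by omega) (by omega) (Sum.inr x)).symm
  | two x b =>
    subst e
    rfl
  | hor x =>
    have : n = m := by omega
    subst this
    rfl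

lemma liftR_src (t c : Tree) {n m : ℕ} (r : RCell (K c) n (m + 1)) :
    liftR t c (RCell.src m r) = RCell.src (m + 1) (liftR t c r) :=
  liftR_srcAux t c r m rfl

lemma liftR_tgt (t c : Tree) {n m : ℕ} (r : RCell (K c) n (m + 1)) :
    liftR t c (RCell.tgt m r) = RCell.tgt (m + 1) (liftR t c r) :=
  liftR_tgtAux t c r m rfl

lemma src_liftR_zero (t c : Tree) {n : ℕ} (r : RCell (K c) n 0) :
    RCell.src 0 (liftR t c r) = .old (by omega) (some (last t)) := by
  cases r with
  | old hm x =>
    exact RCell.src_old_ne (X := K (snoc t c)) (by omega) (by omega) (Sum.inr x)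
  | two x b => rfl

lemma tgt_liftR_zero (t c : Tree) {n : ℕ} (r : RCell (K c) n 0) :
    RCell.tgt 0 (liftR t c r) = .old (by omega) none := by
  cases r with
  | old hm x =>
    exact RCell.tgt_old_ne (X := K (snoc t c)) (by omega) (by omega) (Sum.inr x)
  | two x b => rfl

lemma liftR_injective (t c : Tree) {n m : ℕ} : Function.Injective (liftR t c (n := n) (m := m)) := by
  intro a b h
  cases a with
  | old h₁ x =>
    cases b with
    | old h₂ y =>
      rw [Sum.inr.inj (RCell.old.inj h)]
    | two y b => exact absurd rfl h₁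
    | hor y => cases h
  | two x c =>
    cases b with
    | old h₂ y => exact absurd rfl h₂
    | two y d =>
      have h' := RCell.two.inj h
      rw [Sum.inr.inj h'.1, h'.2]
  | hor x =>
    cases b with
    | old h₂ y => cases h
    | hor y =>
      rw [Sum.inr.inj (RCell.hor.inj h)]

lemma map_inclL_ne_liftR (t c : Tree) {n m : ℕ} (r : RCell (K t) (n + 1) (m + 1))
    (r' : RCell (K c) n m) : RCell.map (inclL t c) r ≠ liftR t c r' := by
  cases r with
  | old h x =>
    cases r' with
    | old h' y => intro h; cases h
    | two y b => intro h; cases h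
    | hor y => intro h; cases h
  | two x b =>
    cases r' with
    | old h' y => intro h; cases h
    | two y d => intro h; cases h
  | hor x =>
    cases r' with
    | old h' y => intro h; cases h
    | hor y => intro h; cases h

lemma map_inclL_ne_old_none (t c : Tree) {n : ℕ} (r : RCell (K t) (n + 1) 0) (h : 0 ≠ n + 1) :
    RCell.map (inclL t c) r ≠ .old h none := by
  cases r with
  | old hm x => intro h; cases h

lemma isPhiSS (t c : Tree) (n : ℕ) {f : ∀ m, Cell (ins (n + 1) t) m → RCell (K t) (n + 1) m}
    {g : ∀ m, Cell (ins n c) m → RCell (K c) n m} (hf : IsPhi (n + 1) t f) (hg : IsPhi n c g) :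
    IsPhi (n + 1) (snoc t c) (phiSS t c n f g) where
  src m x := by
    match m, x with
    | 0, Sum.inl y =>
      exact (congrArg (RCell.map (inclL t c)) (hf.src 0 y)).trans (RCell.map_src (inclL t c) 0 _)
    | 0, Sum.inr z =>
      exact (congrArg (RCell.map (inclL t c)) hf.last).trans (src_liftR_zero t c _).symm
    | m + 1, Sum.inl y =>
      exact (congrArg (RCell.map (inclL t c)) (hf.src (m + 1) y)).trans
        (RCell.map_src (inclL t c) (m + 1) _)
    | m + 1, Sum.inr z =>
      exact (congrArg (liftR t c) (hg.src m z)).trans (liftR_src t c _)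
  tgt m x := by
    match m, x with
    | 0, Sum.inl y =>
      exact (congrArg (RCell.map (inclL t c)) (hf.tgt 0 y)).trans (RCell.map_tgt (inclL t c) 0 _)
    | 0, Sum.inr z =>
      exact (tgt_liftR_zero t c _).symm
    | m + 1, Sum.inl y =>
      exact (congrArg (RCell.map (inclL t c)) (hf.tgt (m + 1) y)).trans
        (RCell.map_tgt (inclL t c) (m + 1) _)
    | m + 1, Sum.inr z =>
      exact (congrArg (liftR t c) (hg.tgt m z)).trans (liftR_tgt t c _)
  last := rfl
  bij m := by
    match m with
    | 0 =>
      constructor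
      · intro a b h
        match a, b with
        | none, none => rfl
        | none, some y => exact absurd h.symm (map_inclL_ne_old_none t c _ _)
        | some y, none => exact absurd h (map_inclL_ne_old_none t c _ _)
        | some y, some y' =>
          rw [(hf.bij 0).1 (RCell.map_injective (inclL t c) (inclL_injective t c) 0 h)]
      · intro r
        cases r with
        | old hm x =>
          match x with
          | none => exact ⟨none, rfl⟩
          | some x =>
            obtain ⟨y, hy⟩ := (hf.bij 0).2 (.old hm x)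
            exact ⟨some y, congrArg (RCell.map (inclL t c)) hy⟩
    | m + 1 =>
      constructor
      · intro a b h
        match a, b with
        | Sum.inl y, Sum.inl y' =>
          rw [(hf.bij _).1 (RCell.map_injective (inclL t c) (inclL_injective t c) _ h)]
        | Sum.inl y, Sum.inr z => exact absurd h (map_inclL_ne_liftR t c _ _)
        | Sum.inr z, Sum.inl y => exact absurd h.symm (map_inclL_ne_liftR t c _ _)
        | Sum.inr z, Sum.inr z' => rw [(hg.bij _).1 (liftR_injective t c h)]
      · intro r
        cases r with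
        | old hm x =>
          match x with
          | Sum.inl x =>
            obtain ⟨y, hy⟩ := (hf.bij _).2 (.old hm x)
            exact ⟨Sum.inl y, congrArg (RCell.map (inclL t c)) hy⟩
          | Sum.inr x =>
            obtain ⟨y, hy⟩ := (hg.bij _).2 (.old (by omega) x)
            exact ⟨Sum.inr y, congrArg (liftR t c) hy⟩
        | two x b =>
          match x with
          | Sum.inl x =>
            obtain ⟨y, hy⟩ := (hf.bij _).2 (.two x b)
            exact ⟨Sum.inl y, congrArg (RCell.map (inclL t c)) hy⟩
          | Sum.inr x =>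
            obtain ⟨y, hy⟩ := (hg.bij _).2 (.two x b)
            exact ⟨Sum.inr y, congrArg (liftR t c) hy⟩
        | hor x =>
          match x with
          | Sum.inl x =>
            obtain ⟨y, hy⟩ := (hf.bij _).2 (.hor x)
            exact ⟨Sum.inl y, congrArg (RCell.map (inclL t c)) hy⟩
          | Sum.inr x =>
            obtain ⟨y, hy⟩ := (hg.bij _).2 (.hor x)
            exact ⟨Sum.inr y, congrArg (liftR t c) hy⟩

lemma exists_isPhi : ∀ (t : Tree) (n : ℕ), ∃ f, IsPhi n t f
  | nil, 0 => ⟨phi00, isPhi00⟩
  | nil, n + 1 => ⟨phiS n, isPhiS n⟩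
  | snoc t c, 0 =>
    let ⟨_, hf⟩ := exists_isPhi t 0
    ⟨_, isPhi0 t c hf⟩
  | snoc t c, n + 1 =>
    let ⟨_, hf⟩ := exists_isPhi t (n + 1)
    let ⟨_, hg⟩ := exists_isPhi c n
    ⟨_, isPhiSS t c n hf hg⟩

/-- The insertion for trees, as an iso of globular sets. -/
theorem exists_ins_iso (t : Tree) (n : ℕ) :
    ∃ f : (K (ins n t)).Map (Rg n (K t)), ∀ m, Function.Bijective (f.app m) := by
  obtain ⟨f, hf⟩ := exists_isPhi t n
  exact ⟨⟨f, hf.src, hf.tgt⟩, hf.bij⟩

end Tree

/-- **Insertion.** For a shape `S` and `n` there is a shape `S''` of height at most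
`max S.dim (n + 1)` whose realization is the insertion `Rg n` of the cells of `S.psh`: its cells are
the cells of `S.psh`, with a new copy `v¹` of each `n`-cell `v`, a new `(n+1)`-cell `H v : v ⟶ v¹`,
and the source of each old `(n+1)`-cell is rerouted to the new copy. -/
theorem exists_insert (S : Shape) (n : ℕ) :
    ∃ S'' : Shape, S''.dim ≤ max S.dim (n + 1) ∧
      Nonempty (S''.psh ≅ GS.psh (Rg n S.psh.toGlobSet)) := by
  obtain ⟨S'', hS''⟩ := exists_shape_of_tree (Tree.ins n (shapeTree S))
  refine ⟨S'', ?_, ?_⟩
  · rw [← height_shapeTree S'', hS'', ← height_shapeTree S]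
    exact Tree.height_ins n _
  · obtain ⟨e⟩ := exists_iso_shapeTree S''
    obtain ⟨e0⟩ := exists_iso_shapeTree S
    obtain ⟨f, hf⟩ := Tree.exists_ins_iso (shapeTree S) n
    rw [hS''] at e
    -- `(shapeTree S).K` compared with `S.psh`
    let g : S.psh.toGlobSet.Map (Tree.K (shapeTree S)) := GS.toGlobSetIsoMap e0.hom
    have hg : ∀ m, Function.Bijective (g.app m) := by
      intro m
      refine (isIso_iff_bijective _).1 ?_
      exact inferInstanceAs (IsIso (e0.hom.app (op (GlobeObj.mk m))))
    have i1 : IsIso (GS.pshMap f) := GS.isIso_pshMap f hf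
    have i2 : IsIso (GS.pshMap (Rg.map n g)) :=
      GS.isIso_pshMap _ (fun m => RCell.map_bijective g hg m)
    exact ⟨e ≪≫ @asIso _ _ _ _ (GS.pshMap f) i1 ≪≫ (@asIso _ _ _ _ (GS.pshMap (Rg.map n g)) i2).symm⟩

end Crest.Agent.Henry.Trees
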