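import Crest.Agent.Henry.Whisker
import Crest.Agent.Henry.Transport

/-!
# Whiskers of a model as abstract whisker operations (`WOps`, `WLaws`, `WNat`)
-/

set_option autoImplicit false

open CategoryTheory CategoryTheory.Limits Opposite
open Crest.GeometryTopology.Coherator

universe u

namespace Crest.Agent.Henry

open GlobTheory GlobTheory.GlobModel

variable {C : GlobTheory.{u}}

namespace GM

variable {Z : GlobModel C} (hC : HasFillers C)

/-- Faces of left whiskers in all dimensions above `k`. -/
lemma L_high {k i h : ℕ} (hki : k < i) (hih : i < h) (b : Bool) (x : Z.cells.cell (k + 1))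
    (w : Z.cells.cell h) (hc : Z.cells.tgt k x = bface Z (hki.trans hih) false w) :
    bface Z hih b (L hC k x w) = L hC k x (bface Z hih b w) := by
  have hk : k + 1 ≤ i := hki
  induction h, hih using Nat.le_induction with
  | base => exact L_succ_face hC hk b x w hc
  | succ h hih ih =>
    rw [← bface_bface hih (Nat.lt_succ_self h) b false, L_succ_face hC (by omega) false x w hc]
    have hc' : Z.cells.tgt k x = bface Z (hki.trans hih) false (bface Z (Nat.lt_succ_self h) false w) :=
      hc.trans (bface_bface (hki.trans hih) (Nat.lt_succ_self h) false false w).symm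
    rw [ih _ hc', bface_bface]

/-- Faces of right whiskers in all dimensions above `k`. -/
lemma R_high {k i h : ℕ} (hki : k < i) (hih : i < h) (b : Bool) (w : Z.cells.cell h)
    (x : Z.cells.cell (k + 1)) (hc : bface Z (hki.trans hih) true w = Z.cells.src k x) :
    bface Z hih b (R hC k w x) = R hC k (bface Z hih b w) x := by
  have hk : k + 1 ≤ i := hki
  induction h, hih using Nat.le_induction with
  | base => exact R_succ_face hC hk b w x hc
  | succ h hih ih =>
    rw [← bface_bface hih (Nat.lt_succ_self h) b false, R_succ_face hC (by omega) false w x hc]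
    have hc' : bface Z (hki.trans hih) true (bface Z (Nat.lt_succ_self h) false w) = Z.cells.src k x :=
      (bface_bface (hki.trans hih) (Nat.lt_succ_self h) true false w).trans hc
    rw [ih _ hc', bface_bface]

end GM

/-- The whisker operations of a model. -/
noncomputable def wops (hC : HasFillers C) (Z : GlobModel C) : WOps (cellsPsh Z) where
  inv _ x := GM.inv hC x
  wl k _ x w := GM.L hC k x w
  wr k _ w x := GM.R hC k w x

/-- The laws of the whisker operations of a model. -/
theorem wlaws (hC : HasFillers C) (Z : GlobModel C) : WLaws (wops hC Z) where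
  inv_s _ x := GM.src_inv hC x
  inv_t _ x := GM.tgt_inv hC x
  wl_high hki hih b x w hc := GM.L_high hC hki hih b x w hc
  wl_src hkh x w hc := (GM.L_bface hC hkh x w hc).1
  wl_tgt hkh x w hc := (GM.L_bface hC hkh x w hc).2
  wr_high hki hih b w x hc := GM.R_high hC hki hih b w x hc
  wr_src hkh w x hc := (GM.R_bface hC hkh w x hc).1
  wr_tgt hkh w x hc := (GM.R_bface hC hkh w x hc).2

/-- Maps of models commute with whiskers. -/
theorem wnat (hC : HasFillers C) {Z Y : GlobModel C} (g : Z ⟶ Y) :
    Conx.WNat (wops hC Z) (wops hC Y) (Functor.whiskerLeft C.globes.op g) where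
  inv _ x := GM.map_inv hC g x
  wl hkh x w hc := GM.map_L hC g hkh x w hc
  wr hkh w x hc := GM.map_R hC g hkh w x hc

end Crest.Agent.Henry
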